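import Vale.Agent.Lib.P302.Core

namespace Vale.Agent.Lib.P302

/-- The instance with item sizes `a / L` for `a` in the list `w`. -/
def scale (L : ℕ) (w : List ℕ) : List ℚ := w.map fun a : ℕ => (a : ℚ) / (L : ℚ)

theorem scale_injective {L : ℕ} (hL : 0 < L) : Function.Injective fun a : ℕ => (a : ℚ) / L := by
  intro a b h
  have hL' : (L : ℚ) ≠ 0 := by positivity
  simp only at h
  field_simp at h
  exact_mod_cast h

theorem packsInto_mono {I : List ℚ} {k k' : ℕ} (h : PacksInto I k) (hk : k ≤ k') :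
    PacksInto I k' := by
  obtain ⟨f, hf⟩ := h
  refine ⟨fun i => Fin.castLE hk (f i), fun j => ?_⟩
  by_cases hj : j.val < k
  · have := hf ⟨j.val, hj⟩
    convert this using 3
    simp [Fin.ext_iff]
  · have : (Finset.univ.filter fun i => Fin.castLE hk (f i) = j) = ∅ := by
      apply Finset.filter_eq_empty_iff.mpr
      intro i _ h'
      apply hj
      rw [← h']
      simp
    rw [this]
    simp

theorem packsInto_length {I : List ℚ} (h : ∀ a ∈ I, a ≤ 1) : PacksInto I I.length := by
  refine ⟨id, fun j => ?_⟩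
  have : (Finset.univ.filter fun i => id i = j) = {j} := by
    ext i
    simp
  rw [this]
  simpa using h _ (List.get_mem _ _)

theorem le_OPT {I : List ℚ} {k : ℕ} (h1 : ∀ a ∈ I, a ≤ 1) (h : ¬ PacksInto I k) :
    k + 1 ≤ OPT I := by
  have hne : {k | PacksInto I k}.Nonempty := ⟨_, packsInto_length h1⟩
  have hmem : PacksInto I (OPT I) := Nat.sInf_mem hne
  by_contra hlt
  exact h (packsInto_mono hmem (by omega))

theorem not_packsInto (w s : List ℕ) (L k : ℕ) (hL : 0 < L) (hs : s.Nodup)
    (hpos : ∀ a ∈ s, 0 < a) (hw : ∀ a ∈ w, a ∈ s)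
    (hfeas : feas s L k (s.map w.count) = false) : ¬ PacksInto (scale L w) k := by
  rintro ⟨f, hf⟩
  have hlen : (scale L w).length = w.length := by simp [scale]
  have hL' : (0 : ℚ) < L := by exact_mod_cast hL
  have key : PackV s L k (s.map w.count) := by
    apply packV_of_assign w s L k hs hw (fun i => f (Fin.cast hlen.symm i))
    intro j
    have h1 := hf j
    have h2 : ∑ i ∈ Finset.univ.filter (fun i => f i = j), (scale L w).get i =
        ∑ i ∈ Finset.univ.filter (fun i => f (Fin.cast hlen.symm i) = j),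
          ((w.get i : ℕ) : ℚ) / L := by
      apply Finset.sum_bij (fun i _ => Fin.cast hlen i)
      · intro i hi
        simpa using hi
      · intro i _ i' _ h
        exact Fin.cast_injective hlen h
      · intro i hi
        refine ⟨Fin.cast hlen.symm i, ?_, by simp⟩
        simpa using hi
      · intro i _
        change (List.map (fun a : ℕ => (a : ℚ) / (L : ℚ)) w)[i.val]'(by simpa [scale] using i.isLt) = _
        simp
    rw [h2, ← Finset.sum_div, div_le_one hL'] at h1
    exact_mod_cast h1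
  have := feas_complete s L hpos k _ (by simp) key
  rw [hfeas] at this
  exact Bool.false_ne_true this

theorem list_sum_div_cast {α : Type*} (F : α → ℕ) (Z : ℝ) (l : List α) :
    (l.map fun x => (F x : ℝ) / Z).sum = ((l.map F).sum : ℝ) / Z := by
  induction l with
  | nil => simp
  | cons a l ih => simp [ih, add_div]

theorem isLPValue_of_sol (L : ℕ) (hL : 0 < L) (w : List ℕ) (sol : List (List ℕ × ℕ)) (Z : ℕ)
    (hZ : 0 < Z) (hpat : ∀ x ∈ sol, x.1.sum ≤ L ∧ ∀ a ∈ x.1, a ∈ w)
    (hcov : ∀ a ∈ w, w.count a * Z ≤ (sol.map fun x => x.1.count a * x.2).sum) :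
    IsLPValue (scale L w) (((sol.map fun x => x.2).sum : ℕ) / (Z : ℝ)) := by
  classical
  have hinj := scale_injective hL
  have hZ' : (0 : ℝ) < Z := by exact_mod_cast hZ
  have hL' : (0 : ℚ) < L := by exact_mod_cast hL
  refine ⟨sol.length, fun l σ => (scale L sol[l].1).count (σ : ℚ),
    fun l => (sol[l].2 : ℝ) / Z, ?_, ?_, ?_, ?_⟩
  · -- each pattern is a configuration
    intro l
    have hl := hpat _ (List.getElem_mem l.isLt)
    unfold IsConfiguration
    set P := scale L sol[l].1 with hP
    have hsub : P.toFinset ⊆ (scale L w).toFinset := by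
      intro σ hσ
      simp only [List.mem_toFinset, hP, scale, List.mem_map] at hσ ⊢
      obtain ⟨a, ha, rfl⟩ := hσ
      exact ⟨a, hl.2 a ha, rfl⟩
    have h1 : ∑ σ : {σ // σ ∈ (scale L w).toFinset}, (σ : ℚ) * (P.count (σ : ℚ) : ℚ) =
        ∑ σ ∈ (scale L w).toFinset, σ * (P.count σ : ℚ) :=
      Finset.sum_coe_sort (scale L w).toFinset fun σ => σ * (P.count σ : ℚ)
    have h2 : ∑ σ ∈ P.toFinset, σ * (P.count σ : ℚ) =
        ∑ σ ∈ (scale L w).toFinset, σ * (P.count σ : ℚ) := by
      apply Finset.sum_subset hsub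
      intro σ _ hσ
      have : P.count σ = 0 := List.count_eq_zero_of_not_mem (by simpa using hσ)
      simp [this]
    have h3 : P.sum = ∑ σ ∈ P.toFinset, σ * (P.count σ : ℚ) := by
      rw [Finset.sum_list_count]
      apply Finset.sum_congr rfl
      intro σ _
      simp [nsmul_eq_mul, mul_comm]
    have h4 : P.sum = (sol[l].1.sum : ℚ) / L := by
      rw [hP, scale]
      generalize sol[l].1 = t
      induction t with
      | nil => simp
      | cons a t ih =>
        simp only [List.map_cons, List.sum_cons, ih, Nat.cast_add, add_div]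
    rw [h1, ← h2, ← h3, h4, div_le_one hL']
    exact_mod_cast hl.1
  · intro l
    positivity
  · rintro ⟨σ, hσ⟩
    simp only [List.mem_toFinset, scale, List.mem_map] at hσ
    obtain ⟨a, ha, rfl⟩ := hσ
    have h1 : (scale L w).count ((a : ℚ) / L) = w.count a := by
      rw [scale]
      exact List.count_map_of_injective _ _ hinj _
    have h2 : ∀ p : List ℕ, (scale L p).count ((a : ℚ) / L) = p.count a := by
      intro p
      rw [scale]
      exact List.count_map_of_injective _ _ hinj _
    simp only [h1, h2]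
    have h3 : ∑ l : Fin sol.length, ((sol[l].1.count a : ℕ) : ℝ) * ((sol[l].2 : ℝ) / Z) =
        (((sol.map fun x => x.1.count a * x.2).sum : ℕ) : ℝ) / Z := by
      rw [← list_sum_div_cast (fun x : List ℕ × ℕ => x.1.count a * x.2) (Z : ℝ) sol,
        ← Fin.sum_univ_fun_getElem]
      apply Finset.sum_congr rfl
      intro l _
      simp only [Fin.getElem_fin]
      push_cast
      ring
    rw [h3, le_div_iff₀ hZ']
    exact_mod_cast hcov a ha
  · rw [← list_sum_div_cast (fun x : List ℕ × ℕ => x.2) (Z : ℝ) sol,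
      ← Fin.sum_univ_fun_getElem]
    rfl

theorem LP_le_of_isLPValue {I : List ℚ} {v : ℝ} (h : IsLPValue I v) : LP I ≤ v := by
  apply csInf_le
  · refine ⟨0, ?_⟩
    rintro u ⟨n, c, z, _, hz, _, rfl⟩
    exact Finset.sum_nonneg fun l _ => hz l
  · exact h

/-- Main reduction: a search certificate and a fractional solution bound the gap from below. -/
theorem gap_bound (w s : List ℕ) (sol : List (List ℕ × ℕ)) (L K Z : ℕ) (hL : 0 < L) (hZ : 0 < Z)
    (hs : s.Nodup) (hpos : ∀ a ∈ s, 0 < a) (hw : ∀ a ∈ w, a ∈ s) (hle : ∀ a ∈ w, a ≤ L)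
    (hfeas : feas s L K (s.map w.count) = false)
    (hpat : ∀ x ∈ sol, x.1.sum ≤ L ∧ ∀ a ∈ x.1, a ∈ w)
    (hcov : ∀ a ∈ w, w.count a * Z ≤ (sol.map fun x => x.1.count a * x.2).sum) :
    (∀ a ∈ scale L w, 0 < a ∧ a ≤ 1) ∧
      ((K : ℝ) + 1) - ((sol.map fun x => x.2).sum : ℕ) / (Z : ℝ) ≤
        (OPT (scale L w) : ℝ) - LP (scale L w) := by
  have hL' : (0 : ℚ) < L := by exact_mod_cast hL
  have hI : ∀ a ∈ scale L w, 0 < a ∧ a ≤ 1 := by
    intro q hq
    simp only [scale, List.mem_map] at hq
    obtain ⟨a, ha, rfl⟩ := hq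
    have h0 : (0 : ℚ) < a := by exact_mod_cast hpos a (hw a ha)
    refine ⟨by positivity, ?_⟩
    rw [div_le_one hL']
    exact_mod_cast hle a ha
  refine ⟨hI, ?_⟩
  have h1 := le_OPT (fun a ha => (hI a ha).2) (not_packsInto w s L K hL hs hpos hw hfeas)
  have h2 := LP_le_of_isLPValue (isLPValue_of_sol L hL w sol Z hZ hpat hcov)
  have h3 : ((K : ℝ) + 1) ≤ (OPT (scale L w) : ℝ) := by exact_mod_cast h1
  linarith

end Vale.Agent.Lib.P302
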