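import Vale.Agent.Lib.P302.Defs

namespace Vale.Agent.Lib.P302

/-! Kernel-checkable search for packings of an instance given by integer sizes. -/

/-- dot product of two lists -/
def dot : List ℕ → List ℕ → ℕ
  | a :: s, x :: p => a * x + dot s p
  | _, _ => 0

/-- pointwise truncated subtraction -/
def tsub : List ℕ → List ℕ → List ℕ
  | x :: v, y :: p => (x - y) :: tsub v p
  | v, [] => v
  | [], _ :: _ => []

/-- `PackV s L k v`: the count vector `v` over the sizes `s` is covered by `k` patterns of load
at most `L`. -/
def PackV (s : List ℕ) (L : ℕ) : ℕ → List ℕ → Prop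
  | 0, v => ∀ x ∈ v, x = 0
  | k + 1, v => ∃ p, dot s p ≤ L ∧ PackV s L k (tsub v p)

/-- all residual vectors `v - p` for patterns `p` of load at most `cap` -/
def residAll : List ℕ → List ℕ → ℕ → List (List ℕ)
  | a :: s, x :: v, cap =>
      (List.range (min x (cap / a) + 1)).flatMap fun q =>
        (residAll s v (cap - a * q)).map fun r => (x - q) :: r
  | _, v, _ => [v]

/-- all residual vectors `v - p` for patterns `p` covering the first nonzero coordinate of `v` -/
def residFirst : List ℕ → List ℕ → ℕ → List (List ℕ)
  | a :: s, x :: v, cap =>
      if x = 0 then (residFirst s v cap).map fun r => 0 :: r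
      else
        (List.range (min x (cap / a))).flatMap fun q =>
          (residAll s v (cap - a * (q + 1))).map fun r => (x - (q + 1)) :: r
  | _, _, _ => []

/-- exhaustive search: `feas s L k v = false` certifies that `v` cannot be covered by `k` patterns -/
def feas (s : List ℕ) (L : ℕ) : ℕ → List ℕ → Bool
  | 0, v => v.all (· == 0)
  | k + 1, v =>
      v.all (· == 0) ||
        (decide (dot s v ≤ (k + 1) * L) && (residFirst s v L).any (feas s L k))

theorem tsub_nil (v : List ℕ) : tsub v [] = v := by
  cases v <;> rfl

theorem tsub_comm : ∀ (v p q : List ℕ), tsub (tsub v p) q = tsub (tsub v q) p := by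
  intro v
  induction v with
  | nil =>
    intro p q
    cases p <;> cases q <;> rfl
  | cons x v ih =>
    intro p q
    cases p with
    | nil => simp [tsub]
    | cons y p =>
      cases q with
      | nil => simp [tsub]
      | cons z q =>
        simp only [tsub]
        rw [ih p q]
        congr 1
        omega

theorem length_tsub : ∀ (v p : List ℕ), (tsub v p).length = v.length := by
  intro v
  induction v with
  | nil => intro p; cases p <;> rfl
  | cons x v ih =>
    intro p
    cases p with
    | nil => rfl
    | cons y p => simp [tsub, ih]

/-- covers the first nonzero coordinate -/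
def CoversFirst : List ℕ → List ℕ → Prop
  | x :: v, y :: p => if x = 0 then CoversFirst v p else 1 ≤ y
  | _, _ => False

theorem coversFirst_of_tsub_zero : ∀ (v p : List ℕ), (∀ x ∈ tsub v p, x = 0) →
    (¬ ∀ x ∈ v, x = 0) → CoversFirst v p := by
  intro v
  induction v with
  | nil => intro p _ h; exact absurd (by simp) h
  | cons x v ih =>
    intro p hp h
    cases p with
    | nil =>
      rw [tsub_nil] at hp
      exact absurd hp h
    | cons y p =>
      simp only [tsub, List.mem_cons, forall_eq_or_imp] at hp
      simp only [CoversFirst]
      split_ifs with hx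
      · apply ih p hp.2
        intro h'
        apply h
        simp only [List.mem_cons, forall_eq_or_imp]
        exact ⟨hx, h'⟩
      · omega

theorem coversFirst_of_tsub : ∀ (v p q : List ℕ), ¬ CoversFirst v p → CoversFirst (tsub v p) q →
    CoversFirst v q := by
  intro v
  induction v with
  | nil =>
    intro p q _ h
    cases p <;> cases q <;> simp [tsub, CoversFirst] at h
  | cons x v ih =>
    intro p q h1 h2
    cases p with
    | nil => rw [tsub_nil] at h2; exact h2
    | cons y p =>
      cases q with
      | nil => simp [tsub, CoversFirst] at h2
      | cons z q =>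
        simp only [tsub, CoversFirst] at h1 h2 ⊢
        by_cases hx : x = 0
        · subst hx
          simp only [if_true, Nat.zero_sub] at h1 h2 ⊢
          exact ih p q h1 h2
        · rw [if_neg hx] at h1 ⊢
          have hxy : x - y ≠ 0 := by omega
          rw [if_neg hxy] at h2
          exact h2

/-- In a covering by `k+1` patterns, some pattern covers the first nonzero coordinate. -/
theorem exists_first (s : List ℕ) (L : ℕ) :
    ∀ (k : ℕ) (v : List ℕ), (¬ ∀ x ∈ v, x = 0) → PackV s L (k + 1) v →
      ∃ p, dot s p ≤ L ∧ CoversFirst v p ∧ PackV s L k (tsub v p) := by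
  intro k
  induction k with
  | zero =>
    intro v hv h
    obtain ⟨p, hp, hz⟩ := h
    exact ⟨p, hp, coversFirst_of_tsub_zero v p hz hv, hz⟩
  | succ k ih =>
    intro v hv h
    obtain ⟨p, hp, hz⟩ := h
    by_cases hc : CoversFirst v p
    · exact ⟨p, hp, hc, hz⟩
    · have hnz : ¬ ∀ x ∈ tsub v p, x = 0 := fun h0 => hc (coversFirst_of_tsub_zero v p h0 hv)
      obtain ⟨q, hq, hcq, hr⟩ := ih (tsub v p) hnz hz
      refine ⟨q, hq, coversFirst_of_tsub v p q hc hcq, p, hp, ?_⟩
      rw [tsub_comm]
      exact hr

theorem mem_residAll : ∀ (s v p : List ℕ) (cap : ℕ), (∀ a ∈ s, 0 < a) → v.length ≤ s.length →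
    dot s p ≤ cap → tsub v p ∈ residAll s v cap := by
  intro s
  induction s with
  | nil =>
    intro v p cap _ hl _
    have hv : v = [] := by simpa using hl
    subst hv
    cases p <;> simp [tsub, residAll]
  | cons a s ih =>
    intro v p cap hpos hl hd
    cases v with
    | nil => cases p <;> simp [tsub, residAll]
    | cons x v =>
      have ha : 0 < a := hpos a (by simp)
      have hpos' : ∀ b ∈ s, 0 < b := fun b hb => hpos b (by simp [hb])
      have hl' : v.length ≤ s.length := by simpa using hl
      simp only [residAll, List.mem_flatMap, List.mem_map, List.mem_range]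
      cases p with
      | nil =>
        refine ⟨0, Nat.succ_pos _, v, ?_, by simp [tsub_nil]⟩
        have := ih v [] (cap - a * 0) hpos' hl' (by simp [dot])
        simpa [tsub_nil] using this
      | cons y p =>
        simp only [dot] at hd
        have hq : min x y ≤ cap / a := by
          rw [Nat.le_div_iff_mul_le ha]
          calc min x y * a ≤ y * a := Nat.mul_le_mul_right _ (min_le_right _ _)
            _ = a * y := Nat.mul_comm _ _
            _ ≤ cap := by omega
        have hq' : min x y < min x (cap / a) + 1 := by
          have : min x y ≤ min x (cap / a) := le_min (min_le_left _ _) hq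
          omega
        refine ⟨min x y, hq', tsub v p, ?_, ?_⟩
        · apply ih v p _ hpos' hl'
          have h1 : a * min x y ≤ a * y := Nat.mul_le_mul_left _ (min_le_right _ _)
          omega
        · simp only [tsub]
          congr 1
          omega

theorem mem_residFirst : ∀ (s v p : List ℕ) (cap : ℕ), (∀ a ∈ s, 0 < a) → v.length ≤ s.length →
    dot s p ≤ cap → CoversFirst v p → tsub v p ∈ residFirst s v cap := by
  intro s
  induction s with
  | nil =>
    intro v p cap _ hl _ hc
    have hv : v = [] := by simpa using hl
    subst hv
    simp [CoversFirst] at hc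
  | cons a s ih =>
    intro v p cap hpos hl hd hc
    cases v with
    | nil => simp [CoversFirst] at hc
    | cons x v =>
      cases p with
      | nil => simp [CoversFirst] at hc
      | cons y p =>
        have ha : 0 < a := hpos a (by simp)
        have hpos' : ∀ b ∈ s, 0 < b := fun b hb => hpos b (by simp [hb])
        have hl' : v.length ≤ s.length := by simpa using hl
        simp only [dot] at hd
        simp only [CoversFirst] at hc
        simp only [residFirst, tsub]
        by_cases hx : x = 0
        · subst hx
          simp only [if_true] at hc ⊢
          simp only [List.mem_map, Nat.zero_sub]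
          exact ⟨tsub v p, ih v p cap hpos' hl' (by omega) hc, rfl⟩
        · rw [if_neg hx] at hc ⊢
          simp only [List.mem_flatMap, List.mem_map, List.mem_range]
          have hq : min x y ≤ cap / a := by
            rw [Nat.le_div_iff_mul_le ha]
            calc min x y * a ≤ y * a := Nat.mul_le_mul_right _ (min_le_right _ _)
              _ = a * y := Nat.mul_comm _ _
              _ ≤ cap := by omega
          have hge : 1 ≤ min x y := by
            apply le_min <;> omega
          have hq' : min x y - 1 < min x (cap / a) := by
            have : min x y ≤ min x (cap / a) := le_min (min_le_left _ _) hq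
            omega
          refine ⟨min x y - 1, hq', tsub v p, ?_, ?_⟩
          · apply mem_residAll s v p _ hpos' hl'
            have h1 : a * (min x y - 1 + 1) ≤ a * y := by
              apply Nat.mul_le_mul_left
              have := min_le_right x y
              omega
            omega
          · congr 1
            have : min x y - 1 + 1 = min x y := by omega
            rw [this]
            omega

theorem dot_le_add_tsub : ∀ (s v p : List ℕ), dot s v ≤ dot s p + dot s (tsub v p) := by
  intro s
  induction s with
  | nil => intro v p; simp [dot]
  | cons a s ih =>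
    intro v p
    cases v with
    | nil => cases p <;> simp [dot, tsub]
    | cons x v =>
      cases p with
      | nil => simp [dot, tsub]
      | cons y p =>
        simp only [dot, tsub]
        have h1 := ih v p
        have h2 : a * x ≤ a * y + a * (x - y) := by
          rw [← Nat.mul_add]
          apply Nat.mul_le_mul_left
          omega
        omega

theorem dot_eq_zero : ∀ (s v : List ℕ), (∀ x ∈ v, x = 0) → dot s v = 0 := by
  intro s
  induction s with
  | nil => intro v _; cases v <;> simp [dot]
  | cons a s ih =>
    intro v h
    cases v with
    | nil => simp [dot]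
    | cons x v =>
      simp only [List.mem_cons, forall_eq_or_imp] at h
      simp [dot, h.1, ih v h.2]

theorem volume_bound (s : List ℕ) (L : ℕ) : ∀ (k : ℕ) (v : List ℕ), PackV s L k v →
    dot s v ≤ k * L := by
  intro k
  induction k with
  | zero =>
    intro v h
    simpa using dot_eq_zero s v h
  | succ k ih =>
    intro v h
    obtain ⟨p, hp, hz⟩ := h
    have h1 := dot_le_add_tsub s v p
    have h2 := ih _ hz
    calc dot s v ≤ L + k * L := by omega
      _ = (k + 1) * L := by ring

/-- Completeness of the search. -/
theorem feas_complete (s : List ℕ) (L : ℕ) (hpos : ∀ a ∈ s, 0 < a) :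
    ∀ (k : ℕ) (v : List ℕ), v.length ≤ s.length → PackV s L k v → feas s L k v = true := by
  intro k
  induction k with
  | zero =>
    intro v _ h
    simp only [feas, List.all_eq_true, beq_iff_eq]
    exact h
  | succ k ih =>
    intro v hl h
    simp only [feas, Bool.or_eq_true, Bool.and_eq_true, decide_eq_true_eq, List.all_eq_true,
      beq_iff_eq, List.any_eq_true]
    by_cases hz : ∀ x ∈ v, x = 0
    · exact Or.inl hz
    · right
      refine ⟨volume_bound s L _ _ h, ?_⟩
      obtain ⟨p, hp, hc, hr⟩ := exists_first s L k v hz h
      refine ⟨tsub v p, mem_residFirst s v p L hpos hl hp hc, ?_⟩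
      exact ih _ (by rw [length_tsub]; exact hl) hr

theorem dot_map (h : ℕ → ℕ) : ∀ s : List ℕ, dot s (s.map h) = (s.map fun a => a * h a).sum := by
  intro s
  induction s with
  | nil => rfl
  | cons a s ih => simp [dot, ih]

theorem tsub_map (g h : ℕ → ℕ) : ∀ s : List ℕ,
    tsub (s.map g) (s.map h) = s.map fun a => g a - h a := by
  intro s
  induction s with
  | nil => rfl
  | cons a s ih => simp [tsub, ih]

/-- A family of `k` patterns covering `g` gives `PackV`. -/
theorem packV_of_family (s : List ℕ) (L : ℕ) : ∀ (k : ℕ) (g : ℕ → ℕ) (N : Fin k → ℕ → ℕ),
    (∀ j, (s.map fun a => a * N j a).sum ≤ L) → (∀ a ∈ s, g a ≤ ∑ j, N j a) →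
    PackV s L k (s.map g) := by
  intro k
  induction k with
  | zero =>
    intro g N _ hg x hx
    simp only [List.mem_map] at hx
    obtain ⟨a, ha, rfl⟩ := hx
    simpa using hg a ha
  | succ k ih =>
    intro g N hN hg
    refine ⟨s.map (N 0), ?_, ?_⟩
    · rw [dot_map]
      exact hN 0
    · rw [tsub_map]
      apply ih _ (fun j => N j.succ)
      · intro j
        exact hN j.succ
      · intro a ha
        have := hg a ha
        rw [Fin.sum_univ_succ] at this
        omega

theorem card_filter_get_eq_count (w : List ℕ) (a : ℕ) :
    (Finset.univ.filter fun i : Fin w.length => w.get i = a).card = w.count a := by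
  induction w with
  | nil => simp
  | cons x w ih =>
    rw [Finset.card_filter]
    change (∑ i : Fin (w.length + 1), if (x :: w).get i = a then 1 else 0) = _
    rw [Fin.sum_univ_succ]
    simp only [List.get_eq_getElem, Fin.val_zero, List.getElem_cons_zero, Fin.val_succ,
      List.getElem_cons_succ]
    have h2 := ih
    rw [Finset.card_filter] at h2
    simp only [List.get_eq_getElem] at h2
    rw [h2, List.count_cons]
    by_cases hx : x = a
    · simp [hx, Nat.add_comm]
    · have : (x == a) = false := by simpa using hx
      simp [hx, this]

/-- From an assignment of the items to bins to `PackV`. -/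
theorem packV_of_assign (w s : List ℕ) (L k : ℕ) (hs : s.Nodup) (hw : ∀ a ∈ w, a ∈ s)
    (f : Fin w.length → Fin k)
    (hf : ∀ j : Fin k, ∑ i ∈ Finset.univ.filter (fun i => f i = j), w.get i ≤ L) :
    PackV s L k (s.map w.count) := by
  classical
  apply packV_of_family s L k w.count
    (fun j a => (Finset.univ.filter fun i : Fin w.length => f i = j ∧ w.get i = a).card)
  · intro j
    rw [← List.sum_toFinset _ hs]
    calc ∑ a ∈ s.toFinset, a * (Finset.univ.filter fun i : Fin w.length =>
            f i = j ∧ w.get i = a).card
        = ∑ a ∈ s.toFinset, ∑ i ∈ (Finset.univ.filter fun i : Fin w.length => f i = j) with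
            w.get i = a, w.get i := by
          apply Finset.sum_congr rfl
          intro a _
          have : ((Finset.univ.filter fun i : Fin w.length => f i = j).filter
              fun i => w.get i = a) =
              (Finset.univ.filter fun i : Fin w.length => f i = j ∧ w.get i = a) := by
            rw [Finset.filter_filter]
          rw [this, Finset.sum_congr rfl (g := fun _ => a)]
          · simp [Nat.mul_comm]
          · intro i hi
            exact (Finset.mem_filter.mp hi).2.2
      _ = ∑ i ∈ Finset.univ.filter (fun i => f i = j), w.get i := by
          apply Finset.sum_fiberwise_of_maps_to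
          intro i _
          simp only [List.mem_toFinset]
          exact hw _ (List.get_mem _ _)
      _ ≤ L := hf j
  · intro a _
    rw [← card_filter_get_eq_count]
    rw [Finset.card_eq_sum_card_fiberwise (f := f) (t := Finset.univ) (fun _ _ => Finset.mem_univ _)]
    apply le_of_eq
    apply Finset.sum_congr rfl
    intro j _
    rw [Finset.filter_filter]
    congr 1
    ext i
    simp [and_comm]

end Vale.Agent.Lib.P302
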