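import Mathlib

namespace Vale.Agent.Lib.P302

/-- The items of the list `I` can be distributed into `k` bins, each of total size at most `1`. -/
def PacksInto (I : List ℚ) (k : ℕ) : Prop :=
  ∃ f : Fin I.length → Fin k, ∀ j : Fin k,
    ∑ i ∈ Finset.univ.filter (fun i => f i = j), I.get i ≤ 1

/-- `OPT I`: the least number of bins into which the items of `I` can be packed. -/
noncomputable def OPT (I : List ℚ) : ℕ := sInf {k | PacksInto I k}

/-- A configuration of `I`: a vector of nonnegative integers indexed by the distinct sizes of `I`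
whose total size is at most `1`. A size may occur more often than its multiplicity in `I`. -/
def IsConfiguration (I : List ℚ) (c : {σ // σ ∈ I.toFinset} → ℕ) : Prop :=
  ∑ σ : {σ // σ ∈ I.toFinset}, (σ : ℚ) * (c σ : ℚ) ≤ 1

/-- `v` is the value of a feasible solution of the Gilmore-Gomory configuration LP of `I`:
a finite family of configurations `c l` with weights `z l ≥ 0` such that every size `σ` is
covered at least `n_σ` times (`n_σ = I.count σ`), and `v` is the total weight. -/
def IsLPValue (I : List ℚ) (v : ℝ) : Prop :=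
  ∃ (n : ℕ) (c : Fin n → {σ // σ ∈ I.toFinset} → ℕ) (z : Fin n → ℝ),
    (∀ l, IsConfiguration I (c l)) ∧ (∀ l, 0 ≤ z l) ∧
    (∀ σ : {σ // σ ∈ I.toFinset}, (I.count (σ : ℚ) : ℝ) ≤ ∑ l, (c l σ : ℝ) * z l) ∧
    v = ∑ l, z l

/-- `LP I`: the optimal value of the Gilmore-Gomory configuration LP of `I`. -/
noncomputable def LP (I : List ℚ) : ℝ := sInf {v | IsLPValue I v}

end Vale.Agent.Lib.P302
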