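import Vale.Agent.Lib.P302.Fast

namespace Vale.Agent.Lib.P302

/-! Compact certificates for bin packing lower bounds. A valid dual weight vector restricts the
search to patterns of small slack; the patterns are stored in search trees indexed by their first
nonzero coordinate, and the states are integers holding the count vector, its dual weight and its
volume in separate fields. -/

/-- pointwise order of two lists of the same length -/
def LeL : List ℕ → List ℕ → Prop
  | [], [] => True
  | x :: v, y :: w => x ≤ y ∧ LeL v w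
  | _, _ => False

theorem LeL.length_eq : ∀ {v w : List ℕ}, LeL v w → v.length = w.length := by
  intro v
  induction v with
  | nil => intro w h; cases w <;> simp_all [LeL]
  | cons x v ih =>
    intro w h
    cases w with
    | nil => simp [LeL] at h
    | cons y w =>
      simp only [LeL] at h
      simp [ih h.2]

theorem LeL.refl : ∀ v : List ℕ, LeL v v := by
  intro v
  induction v with
  | nil => trivial
  | cons x v ih => exact ⟨le_refl _, ih⟩

theorem LeL.trans : ∀ {u v w : List ℕ}, LeL u v → LeL v w → LeL u w := by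
  intro u
  induction u with
  | nil =>
    intro v w h1 h2
    cases v with
    | nil => exact h2
    | cons y v => simp [LeL] at h1
  | cons x u ih =>
    intro v w h1 h2
    cases v with
    | nil => simp [LeL] at h1
    | cons y v =>
      cases w with
      | nil => simp [LeL] at h2
      | cons z w => exact ⟨le_trans h1.1 h2.1, ih h1.2 h2.2⟩

/-- the pattern `p` cut down to the vector `v` -/
def pmin : List ℕ → List ℕ → List ℕ
  | [], _ => []
  | _ :: v, [] => 0 :: pmin v []
  | x :: v, y :: p => min x y :: pmin v p

theorem leL_pmin : ∀ v p : List ℕ, LeL (pmin v p) v := by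
  intro v
  induction v with
  | nil => intro p; trivial
  | cons x v ih =>
    intro p
    cases p with
    | nil => exact ⟨Nat.zero_le _, ih []⟩
    | cons y p => exact ⟨min_le_left _ _, ih p⟩

theorem tsub_pmin : ∀ v p : List ℕ, tsub v (pmin v p) = tsub v p := by
  intro v
  induction v with
  | nil => intro p; cases p <;> rfl
  | cons x v ih =>
    intro p
    cases p with
    | nil =>
      have := ih []
      simp only [pmin, tsub, Nat.sub_zero, this]
    | cons y p =>
      simp only [pmin, tsub, ih p]
      congr 1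
      omega

theorem dot_pmin_nil : ∀ s v : List ℕ, dot s (pmin v []) = 0 := by
  intro s
  induction s with
  | nil => intro v; cases v <;> rfl
  | cons a s ih =>
    intro v
    cases v with
    | nil => rfl
    | cons x v => simp [pmin, dot, ih]

theorem dot_pmin_le : ∀ s v p : List ℕ, dot s (pmin v p) ≤ dot s p := by
  intro s
  induction s with
  | nil => intro v p; simp [dot]
  | cons a s ih =>
    intro v p
    cases v with
    | nil => simp [pmin, dot]
    | cons x v =>
      cases p with
      | nil =>
        rw [dot_pmin_nil]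
        exact Nat.zero_le _
      | cons y p =>
        simp only [pmin, dot]
        have h1 : a * min x y ≤ a * y := Nat.mul_le_mul_left _ (min_le_right _ _)
        have h2 := ih v p
        omega

theorem coversFirst_pmin : ∀ v p : List ℕ, CoversFirst v p → CoversFirst v (pmin v p) := by
  intro v
  induction v with
  | nil => intro p h; cases p <;> simp [CoversFirst] at h
  | cons x v ih =>
    intro p h
    cases p with
    | nil => simp [CoversFirst] at h
    | cons y p =>
      simp only [pmin, CoversFirst] at h ⊢
      by_cases hx : x = 0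
      · rw [if_pos hx] at h ⊢
        exact ih p h
      · rw [if_neg hx] at h ⊢
        have : 1 ≤ min x y := le_min (by omega) h
        exact this

theorem dot_add_tsub : ∀ u v p : List ℕ, LeL p v → u.length = v.length →
    dot u v = dot u p + dot u (tsub v p) := by
  intro u
  induction u with
  | nil => intro v p _ _; simp [dot]
  | cons a u ih =>
    intro v p h hl
    cases v with
    | nil => simp at hl
    | cons x v =>
      cases p with
      | nil => simp [LeL] at h
      | cons y p =>
        have h2 := ih v p h.2 (by simpa using hl)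
        simp only [dot, tsub, h2]
        have h3 : a * x = a * y + a * (x - y) := by
          rw [← Nat.mul_add]
          congr 1
          have := h.1
          omega
        omega

theorem enc_add_tsub : ∀ v p : List ℕ, LeL p v → enc v = enc p + enc (tsub v p) := by
  intro v
  induction v with
  | nil => intro p h; cases p <;> simp_all [LeL, enc, tsub]
  | cons x v ih =>
    intro p h
    cases p with
    | nil => simp [LeL] at h
    | cons y p =>
      simp only [enc, tsub, ih p h.2]
      have := h.1
      omega

theorem leL_tsub : ∀ v p : List ℕ, LeL p v → LeL (tsub v p) v := by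
  intro v
  induction v with
  | nil => intro p h; cases p <;> simp_all [LeL, tsub]
  | cons x v ih =>
    intro p h
    cases p with
    | nil => simp [LeL] at h
    | cons y p => exact ⟨Nat.sub_le _ _, ih p h.2⟩

theorem mem_lt_of_leL : ∀ {v b : List ℕ} {c : ℕ}, LeL v b → (∀ x ∈ b, x < c) → ∀ x ∈ v, x < c := by
  intro v
  induction v with
  | nil => intro b c _ _ x hx; simp at hx
  | cons y v ih =>
    intro b c h hb x hx
    cases b with
    | nil => simp [LeL] at h
    | cons z b =>
      simp only [List.mem_cons] at hx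
      rcases hx with rfl | hx
      · exact lt_of_le_of_lt h.1 (hb z (by simp))
      · exact ih h.2 (fun w hw => hb w (by simp [hw])) x hx

theorem enc_lt : ∀ v : List ℕ, (∀ x ∈ v, x < 256) → enc v < 256 ^ v.length := by
  intro v
  induction v with
  | nil => intro _; simp [enc]
  | cons x v ih =>
    intro h
    have hx := h x (by simp)
    have hv := ih (fun y hy => h y (by simp [hy]))
    simp only [enc, List.length_cons, pow_succ]
    omega

/-- guard bits -/
def guard : ℕ → ℕ
  | 0 => 0
  | m + 1 => 128 + 256 * guard m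

theorem land_step (a b c d : ℕ) (ha : a < 256) (hc : c < 256) :
    (a + 256 * b) &&& (c + 256 * d) = (a &&& c) + 256 * (b &&& d) := by
  have h256 : (256 : ℕ) = 2 ^ 8 := by norm_num
  have h1 : ((a + 256 * b) &&& (c + 256 * d)) % 256 = a &&& c := by
    rw [h256, Nat.and_mod_two_pow, ← h256]
    have e1 : (a + 256 * b) % 256 = a := by omega
    have e2 : (c + 256 * d) % 256 = c := by omega
    rw [e1, e2]
  have h2 : ((a + 256 * b) &&& (c + 256 * d)) / 256 = b &&& d := by
    rw [h256, Nat.and_div_two_pow, ← h256]
    have e1 : (a + 256 * b) / 256 = b := by omega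
    have e2 : (c + 256 * d) / 256 = d := by omega
    rw [e1, e2]
  have h3 := Nat.mod_add_div ((a + 256 * b) &&& (c + 256 * d)) 256
  rw [h1, h2] at h3
  exact h3.symm

theorem land_128 : ∀ z : ℕ, z < 256 → 128 ≤ z → z &&& 128 = 128 := by
  intro z h1 h2
  interval_cases z <;> rfl

/-- the digits `x + 128 - y` -/
def zd : List ℕ → List ℕ → List ℕ
  | x :: v, y :: p => (x + 128 - y) :: zd v p
  | _, _ => []

theorem enc_zd : ∀ v p : List ℕ, LeL p v →
    enc v + guard v.length = enc p + enc (zd v p) := by
  intro v
  induction v with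
  | nil => intro p h; cases p <;> simp_all [LeL, enc, zd, guard]
  | cons x v ih =>
    intro p h
    cases p with
    | nil => simp [LeL] at h
    | cons y p =>
      have h1 := ih p h.2
      simp only [enc, zd, List.length_cons, guard]
      have := h.1
      omega

theorem land_guard : ∀ v p : List ℕ, LeL p v → (∀ x ∈ v, x < 128) → ∀ y : ℕ,
    (enc (zd v p) + 256 ^ v.length * y) &&& guard v.length = guard v.length := by
  intro v
  induction v with
  | nil => intro p h _ y; simp [guard]
  | cons x v ih =>
    intro p h hv y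
    cases p with
    | nil => simp [LeL] at h
    | cons z p =>
      have hx := hv x (by simp)
      have hz := h.1
      have h1 := ih p h.2 (fun w hw => hv w (by simp [hw])) y
      have e : enc (zd (x :: v) (z :: p)) + 256 ^ (x :: v).length * y =
          (x + 128 - z) + 256 * (enc (zd v p) + 256 ^ v.length * y) := by
        simp only [zd, enc, List.length_cons, pow_succ]
        ring
      rw [e]
      simp only [List.length_cons, guard]
      rw [land_step _ _ _ _ (by omega) (by norm_num), h1, land_128 _ (by omega) (by omega)]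

/-- full key of a vector: counts, dual weight and volume in separate fields -/
def fk (U s : List ℕ) (M M2 : ℕ) (v : List ℕ) : ℕ :=
  enc v + M * (dot U v + M2 * dot s v)

theorem fk_add_tsub {U s v p : List ℕ} {M M2 : ℕ} (h : LeL p v) (hU : U.length = v.length)
    (hs : s.length = v.length) :
    fk U s M M2 v = fk U s M M2 p + fk U s M M2 (tsub v p) := by
  unfold fk
  rw [enc_add_tsub v p h, dot_add_tsub U v p h hU, dot_add_tsub s v p h hs]
  ring

/-- all tree keys up to a threshold satisfy a predicate (the traversal cuts the right part of a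
node whose key is above the threshold) -/
noncomputable def KeyTree.allLE (t : KeyTree) (thr : ℕ) (p : ℕ → Bool) : Bool :=
  KeyTree.rec (motive := fun _ => Bool) true
    (fun _ k g _ il ir => and il (cond (Nat.ble k thr)
      (and (p (Nat.add k (Nat.sub g g))) ir) true)) t

theorem KeyTree.allLE_node (l r : KeyTree) (k g thr : ℕ) (p : ℕ → Bool) :
    (KeyTree.node l k g r).allLE thr p = and (l.allLE thr p) (cond (Nat.ble k thr)
      (and (p (Nat.add k (Nat.sub g g))) (r.allLE thr p)) true) := rfl

theorem KeyTree.allLE_of_mem : ∀ (t : KeyTree) (thr : ℕ) (p : ℕ → Bool) (x : ℕ), t.mem x = true →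
    x ≤ thr → t.allLE thr p = true → p x = true := by
  intro t thr p x
  induction t with
  | leaf => intro h; simp [KeyTree.mem_leaf] at h
  | node l k g r ihl ihr =>
    intro hm hx ha
    rw [KeyTree.allLE_node, Bool.and_eq_true] at ha
    rw [KeyTree.mem_node] at hm
    have hk : Nat.add k (Nat.sub g g) = k := by
      show k + (g - g) = k
      simp
    rw [hk] at ha
    cases h1 : Nat.ble x k with
    | false =>
      rw [h1] at hm
      have hlt : k < x := by
        by_contra hc
        have : Nat.ble x k = true := Nat.ble_eq.mpr (by omega)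
        rw [h1] at this
        exact Bool.false_ne_true this
      have hb : Nat.ble k thr = true := Nat.ble_eq.mpr (by omega)
      rw [hb] at ha
      simp only [cond_true, Bool.and_eq_true] at ha
      exact ihr hm hx ha.2.2
    | true =>
      rw [h1] at hm
      cases h2 : Nat.ble k x with
      | true =>
        have h3 : x = k := le_antisymm (Nat.le_of_ble_eq_true h1) (Nat.le_of_ble_eq_true h2)
        subst h3
        have hb : Nat.ble x thr = true := Nat.ble_eq.mpr hx
        rw [hb] at ha
        simp only [cond_true, Bool.and_eq_true] at ha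
        exact ha.2.1
      | false =>
        rw [h2] at hm
        exact ihl hm hx ha.1

/-- the tree of the first nonzero digit of `K` -/
noncomputable def firstK (pt : List KeyTree) : ℕ → KeyTree :=
  List.rec (motive := fun _ => ℕ → KeyTree) (fun _ => KeyTree.leaf)
    (fun tr _ ih K => cond (Nat.beq (Nat.mod K 256) 0) (ih (Nat.div K 256)) tr) pt

theorem firstK_cons (tr : KeyTree) (pt : List KeyTree) (K : ℕ) :
    firstK (tr :: pt) K = cond (Nat.beq (K % 256) 0) (firstK pt (K / 256)) tr := rfl

/-- the tree of the first nonzero entry of a list -/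
def firstT : List ℕ → List KeyTree → KeyTree
  | [], _ => KeyTree.leaf
  | x :: v, pt => if x = 0 then firstT v pt.tail else pt.headD KeyTree.leaf

theorem firstK_eq : ∀ (v : List ℕ) (pt : List KeyTree) (y : ℕ), pt.length = v.length →
    (∀ x ∈ v, x < 256) → (¬ ∀ x ∈ v, x = 0) →
    firstK pt (enc v + 256 ^ v.length * y) = firstT v pt := by
  intro v
  induction v with
  | nil => intro pt y _ _ hz; simp at hz
  | cons x v ih =>
    intro pt y hl hv hz
    cases pt with
    | nil => simp at hl
    | cons tr pt =>
      have hx := hv x (by simp)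
      have e : enc (x :: v) + 256 ^ (x :: v).length * y = x + 256 * (enc v + 256 ^ v.length * y) := by
        simp only [enc, List.length_cons, pow_succ]
        ring
      rw [e, firstK_cons]
      have e1 : (x + 256 * (enc v + 256 ^ v.length * y)) % 256 = x := by omega
      have e2 : (x + 256 * (enc v + 256 ^ v.length * y)) / 256 = enc v + 256 ^ v.length * y := by
        omega
      rw [e1, e2]
      by_cases hx0 : x = 0
      · have hb : Nat.beq x 0 = true := by simp [hx0]
        rw [hb]
        simp only [cond_true, firstT, if_pos hx0, List.tail_cons]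
        apply ih pt y (by simpa using hl) (fun w hw => hv w (by simp [hw]))
        intro h
        apply hz
        simp only [List.mem_cons, forall_eq_or_imp]
        exact ⟨hx0, h⟩
      · have hb : Nat.beq x 0 = false := by
          cases h' : Nat.beq x 0 with
          | false => rfl
          | true => exact absurd (Nat.eq_of_beq_eq_true h') hx0
        rw [hb]
        simp only [cond_false, firstT, if_neg hx0, List.headD_cons]

theorem firstT_eq : ∀ (v q : List ℕ) (pt : List KeyTree), LeL q v → CoversFirst v q →
    firstT v pt = firstT q pt := by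
  intro v
  induction v with
  | nil => intro q pt h hc; cases q <;> simp [CoversFirst] at hc
  | cons x v ih =>
    intro q pt h hc
    cases q with
    | nil => simp [CoversFirst] at hc
    | cons y q =>
      simp only [CoversFirst] at hc
      have hyx := h.1
      by_cases hx : x = 0
      · rw [if_pos hx] at hc
        have hy : y = 0 := by omega
        simp only [firstT, if_pos hx, if_pos hy]
        exact ih q _ h.2 hc
      · rw [if_neg hx] at hc
        have hy : y ≠ 0 := by omega
        simp only [firstT, if_neg hx, if_neg hy]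

/-- the data of a certificate -/
structure DualCfg where
  /-- records (size, dual weight, multiplicity) -/
  T : List (ℕ × ℕ × ℕ)
  /-- the bin capacity -/
  L : ℕ
  /-- the dual value of a full bin -/
  D : ℕ
  /-- the maximal budget -/
  Bm : ℕ
  /-- field bases -/
  M : ℕ
  M2 : ℕ
  M3 : ℕ
  BIG : ℕ
  G : ℕ

/-- sizes -/
def sT (T : List (ℕ × ℕ × ℕ)) : List ℕ := T.map fun t => t.1
/-- dual weights -/
def uT (T : List (ℕ × ℕ × ℕ)) : List ℕ := T.map fun t => t.2.1
/-- multiplicities -/
def bT (T : List (ℕ × ℕ × ℕ)) : List ℕ := T.map fun t => t.2.2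

/-- one pattern at a leaf of the enumeration -/
def LeafOK (D Bm M M2 BIG : ℕ) (tr : KeyTree) (acc d vol : ℕ) : Prop :=
  d ≤ D ∧ (d + Bm < D ∨ tr.mem ((D - d) * BIG + (acc + M * (d + M2 * vol))) = true)

/-- enumeration of all patterns below the multiplicities, after the first nonzero entry -/
noncomputable def goTailP (D Bm M M2 BIG : ℕ) (tr : KeyTree) (T : List (ℕ × ℕ × ℕ)) :
    ℕ → ℕ → ℕ → ℕ → ℕ → Bool :=
  List.rec (motive := fun _ => ℕ → ℕ → ℕ → ℕ → ℕ → Bool)
    (fun _ acc _ d vol => and (Nat.ble d D) (or (Nat.blt (Nat.add d Bm) D)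
      (tr.mem (Nat.add (Nat.mul (Nat.sub D d) BIG)
        (Nat.add acc (Nat.mul M (Nat.add d (Nat.mul M2 vol))))))))
    (fun t _ ih cap acc w d vol =>
      and (ih cap acc (Nat.mul 256 w) d vol)
        (allQ (fun q => ih (Nat.sub cap (Nat.mul t.1 q)) (Nat.add acc (Nat.mul w q))
            (Nat.mul 256 w) (Nat.add d (Nat.mul t.2.1 q)) (Nat.add vol (Nat.mul t.1 q)))
          (nmin t.2.2 (Nat.div cap t.1)))) T

theorem goTailP_nil (D Bm M M2 BIG : ℕ) (tr : KeyTree) (cap acc w d vol : ℕ) :
    goTailP D Bm M M2 BIG tr [] cap acc w d vol = and (Nat.ble d D) (or (Nat.blt (d + Bm) D)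
      (tr.mem ((D - d) * BIG + (acc + M * (d + M2 * vol))))) := rfl

theorem goTailP_cons (D Bm M M2 BIG : ℕ) (tr : KeyTree) (t : ℕ × ℕ × ℕ) (T : List (ℕ × ℕ × ℕ))
    (cap acc w d vol : ℕ) :
    goTailP D Bm M M2 BIG tr (t :: T) cap acc w d vol =
      and (goTailP D Bm M M2 BIG tr T cap acc (256 * w) d vol)
        (allQ (fun q => goTailP D Bm M M2 BIG tr T (cap - t.1 * q) (acc + w * q)
            (256 * w) (d + t.2.1 * q) (vol + t.1 * q))
          (nmin t.2.2 (cap / t.1))) := rfl

theorem goTailP_sound (D Bm M M2 BIG : ℕ) (tr : KeyTree) : ∀ (T : List (ℕ × ℕ × ℕ)),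
    (∀ t ∈ T, 0 < t.1) → ∀ (cap acc w d vol : ℕ) (p : List ℕ), LeL p (bT T) →
      dot (sT T) p ≤ cap → goTailP D Bm M M2 BIG tr T cap acc w d vol = true →
      LeafOK D Bm M M2 BIG tr (acc + w * enc p) (d + dot (uT T) p) (vol + dot (sT T) p) := by
  intro T
  induction T with
  | nil =>
    intro _ cap acc w d vol p hp _ h
    have hp0 : p = [] := by
      cases p with
      | nil => rfl
      | cons y p => simp [LeL, bT] at hp
    subst hp0
    rw [goTailP_nil, Bool.and_eq_true, Bool.or_eq_true] at h
    simp only [uT, sT, List.map_nil, enc, dot, Nat.mul_zero, Nat.add_zero]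
    refine ⟨Nat.le_of_ble_eq_true h.1, ?_⟩
    rcases h.2 with h2 | h2
    · left; simpa [Nat.blt_eq] using h2
    · right; exact h2
  | cons t T ih =>
    intro hpos cap acc w d vol p hp hd h
    have ha : 0 < t.1 := hpos t (by simp)
    have hpos' : ∀ t' ∈ T, 0 < t'.1 := fun t' ht' => hpos t' (by simp [ht'])
    cases p with
    | nil => simp [LeL, bT] at hp
    | cons y p =>
      have hy : y ≤ t.2.2 := hp.1
      have hp' : LeL p (bT T) := hp.2
      rw [goTailP_cons, Bool.and_eq_true] at h
      have hd' : t.1 * y + dot (sT T) p ≤ cap := hd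
      have key : LeafOK D Bm M M2 BIG tr (acc + w * y + 256 * w * enc p)
          (d + t.2.1 * y + dot (uT T) p) (vol + t.1 * y + dot (sT T) p) := by
        by_cases hy0 : y = 0
        · subst hy0
          have := ih hpos' cap acc (256 * w) d vol p hp' (by omega) h.1
          exact (show LeafOK D Bm M M2 BIG tr (acc + w * 0 + 256 * w * enc p)
            (d + t.2.1 * 0 + dot (uT T) p) (vol + t.1 * 0 + dot (sT T) p) by simpa using this)
        · have hqn : y ≤ nmin t.2.2 (cap / t.1) := by
            apply le_nmin hy
            rw [Nat.le_div_iff_mul_le ha, Nat.mul_comm]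
            omega
          have h2 := allQ_of_le _ _ h.2 y (by omega) hqn
          exact ih hpos' (cap - t.1 * y) (acc + w * y) (256 * w) (d + t.2.1 * y) (vol + t.1 * y) p hp'
            (by omega) h2
      have e1 : acc + w * enc (y :: p) = acc + w * y + 256 * w * enc p := by
        simp only [enc]; ring
      have e2 : d + dot (uT (t :: T)) (y :: p) = d + t.2.1 * y + dot (uT T) p := by
        simp only [uT, List.map_cons, dot]; ring
      have e3 : vol + dot (sT (t :: T)) (y :: p) = vol + t.1 * y + dot (sT T) p := by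
        simp only [sT, List.map_cons, dot]; ring
      rw [e1, e2, e3]
      exact key

/-- enumeration of all patterns below the multiplicities: the search tree is chosen at the first
nonzero entry -/
noncomputable def goFirstP (D Bm M M2 BIG : ℕ) (T : List (ℕ × ℕ × ℕ)) :
    List KeyTree → ℕ → ℕ → ℕ → Bool :=
  List.rec (motive := fun _ => List KeyTree → ℕ → ℕ → ℕ → Bool)
    (fun _ _ _ _ => true)
    (fun t rest ih pt cap acc w =>
      and (ih (List.tail pt) cap acc (Nat.mul 256 w))
        (allQ (fun q => goTailP D Bm M M2 BIG (List.headD pt KeyTree.leaf) rest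
            (Nat.sub cap (Nat.mul t.1 q)) (Nat.add acc (Nat.mul w q))
            (Nat.mul 256 w) (Nat.mul t.2.1 q) (Nat.mul t.1 q))
          (nmin t.2.2 (Nat.div cap t.1)))) T

theorem goFirstP_cons (D Bm M M2 BIG : ℕ) (t : ℕ × ℕ × ℕ) (T : List (ℕ × ℕ × ℕ))
    (pt : List KeyTree) (cap acc w : ℕ) :
    goFirstP D Bm M M2 BIG (t :: T) pt cap acc w =
      and (goFirstP D Bm M M2 BIG T pt.tail cap acc (256 * w))
        (allQ (fun q => goTailP D Bm M M2 BIG (pt.headD KeyTree.leaf) T
            (cap - t.1 * q) (acc + w * q) (256 * w) (t.2.1 * q) (t.1 * q))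
          (nmin t.2.2 (cap / t.1))) := rfl

theorem goFirstP_sound (D Bm M M2 BIG : ℕ) : ∀ (T : List (ℕ × ℕ × ℕ)),
    (∀ t ∈ T, 0 < t.1) → ∀ (pt : List KeyTree) (cap acc w : ℕ) (p : List ℕ), LeL p (bT T) →
      dot (sT T) p ≤ cap → (¬ ∀ x ∈ p, x = 0) → goFirstP D Bm M M2 BIG T pt cap acc w = true →
      LeafOK D Bm M M2 BIG (firstT p pt) (acc + w * enc p) (dot (uT T) p) (dot (sT T) p) := by
  intro T
  induction T with
  | nil =>
    intro _ pt cap acc w p hp _ hz _
    have hp0 : p = [] := by
      cases p with
      | nil => rfl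
      | cons y p => simp [LeL, bT] at hp
    subst hp0
    simp at hz
  | cons t T ih =>
    intro hpos pt cap acc w p hp hd hz h
    have ha : 0 < t.1 := hpos t (by simp)
    have hpos' : ∀ t' ∈ T, 0 < t'.1 := fun t' ht' => hpos t' (by simp [ht'])
    cases p with
    | nil => simp [LeL, bT] at hp
    | cons y p =>
      have hy : y ≤ t.2.2 := hp.1
      have hp' : LeL p (bT T) := hp.2
      rw [goFirstP_cons, Bool.and_eq_true] at h
      have hd' : t.1 * y + dot (sT T) p ≤ cap := hd
      have e1 : acc + w * enc (y :: p) = acc + w * y + 256 * w * enc p := by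
        simp only [enc]; ring
      have e2 : dot (uT (t :: T)) (y :: p) = t.2.1 * y + dot (uT T) p := by
        simp only [uT, List.map_cons, dot]
      have e3 : dot (sT (t :: T)) (y :: p) = t.1 * y + dot (sT T) p := by
        simp only [sT, List.map_cons, dot]
      rw [e1, e2, e3]
      by_cases hy0 : y = 0
      · subst hy0
        have hz' : ¬ ∀ x ∈ p, x = 0 := by
          intro h'
          apply hz
          intro x hx
          simp only [List.mem_cons] at hx
          rcases hx with rfl | hx
          · rfl
          · exact h' x hx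
        have := ih hpos' pt.tail cap acc (256 * w) p hp' (by omega) hz' h.1
        simpa [firstT] using this
      · have hqn : y ≤ nmin t.2.2 (cap / t.1) := by
          apply le_nmin hy
          rw [Nat.le_div_iff_mul_le ha, Nat.mul_comm]
          omega
        have h2 := allQ_of_le _ _ h.2 y (by omega) hqn
        have := goTailP_sound D Bm M M2 BIG (pt.headD KeyTree.leaf) T hpos' (cap - t.1 * y)
          (acc + w * y) (256 * w) (t.2.1 * y) (t.1 * y) p hp' (by omega) h2
        simp only [firstT, if_neg hy0]
        exact this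

/-- the test of one tree key at the state `K` with `j` bins left after the pattern -/
noncomputable def patTest (G BIG M3 Lj : ℕ) (t : KeyTree) (K pk : ℕ) : Bool :=
  cond (Nat.beq (Nat.land (Nat.sub (Nat.add K G) (Nat.mod pk BIG)) G) G)
    (or (Nat.blt Lj (Nat.div (Nat.sub K (Nat.mod pk BIG)) M3)) (t.mem (Nat.sub K (Nat.mod pk BIG))))
    true

/-- the budget of a state with `j + 1` bins; `JD` stands for `(j + 1) * D` -/
noncomputable def budOf (JD M M2 K : ℕ) : ℕ :=
  Nat.sub JD (Nat.mod (Nat.div K M) M2)

/-- the check of a state with `j + 1` bins, given the table of the states with `j` bins, with the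
data given by numbers -/
noncomputable def checkN (JD Bm M M2 BIG G M3 : ℕ) (pt : List KeyTree) (Lj : ℕ) (t : KeyTree)
    (K : ℕ) : Bool :=
  and (Nat.blt 0 K) (and (Nat.ble (budOf JD M M2 K) Bm)
    (KeyTree.allLE (firstK pt K) (Nat.sub (Nat.mul (Nat.succ (budOf JD M M2 K)) BIG) 1)
      (patTest G BIG M3 Lj t K)))

/-- the check of a state with `j + 1` bins, given the table of the states with `j` bins -/
noncomputable def checkK (c : DualCfg) (pt : List KeyTree) (j Lj : ℕ) (t : KeyTree) (K : ℕ) : Bool :=
  checkN ((j + 1) * c.D) c.Bm c.M c.M2 c.BIG c.G c.M3 pt Lj t K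

/-- the conditions on the data of a certificate -/
structure DualCfg.Valid (c : DualCfg) (pt : List KeyTree) : Prop where
  pos : ∀ t ∈ c.T, 0 < t.1
  hM : c.M = 256 ^ c.T.length
  hG : c.G = guard c.T.length
  hM3 : c.M3 = c.M * c.M2
  hb : ∀ x ∈ bT c.T, x < 128
  hU : dot (uT c.T) (bT c.T) < c.M2
  hBIG : c.M * (1 + c.D + c.M2 * c.L) ≤ c.BIG
  hpt : pt.length = c.T.length
  hC : goFirstP c.D c.Bm c.M c.M2 c.BIG c.T pt c.L 0 1 = true

section
variable {c : DualCfg} {pt : List KeyTree}

theorem length_sT (T : List (ℕ × ℕ × ℕ)) : (sT T).length = T.length := by simp [sT]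
theorem length_uT (T : List (ℕ × ℕ × ℕ)) : (uT T).length = T.length := by simp [uT]
theorem length_bT (T : List (ℕ × ℕ × ℕ)) : (bT T).length = T.length := by simp [bT]

theorem dot_le_of_leL : ∀ (u v w : List ℕ), LeL v w → dot u v ≤ dot u w := by
  intro u
  induction u with
  | nil => intro v w _; simp [dot]
  | cons a u ih =>
    intro v w h
    cases v with
    | nil =>
      cases w with
      | nil => simp [dot]
      | cons z w => simp [LeL] at h
    | cons x v =>
      cases w with
      | nil => simp [LeL] at h
      | cons z w =>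
        simp only [dot]
        have h1 : a * x ≤ a * z := Nat.mul_le_mul_left _ h.1
        have h2 := ih v w h.2
        omega

/-- completeness of the pattern trees and validity of the dual weights -/
theorem leaf_of_valid (hv : c.Valid pt) (p : List ℕ) (hp : LeL p (bT c.T))
    (hd : dot (sT c.T) p ≤ c.L) (hz : ¬ ∀ x ∈ p, x = 0) :
    LeafOK c.D c.Bm c.M c.M2 c.BIG (firstT p pt) (enc p) (dot (uT c.T) p) (dot (sT c.T) p) := by
  have := goFirstP_sound c.D c.Bm c.M c.M2 c.BIG c.T hv.pos pt c.L 0 1 p hp hd hz hv.hC
  simpa using this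

theorem dot_zero_of_all : ∀ (u v : List ℕ), (∀ x ∈ v, x = 0) → dot u v = 0 := by
  intro u
  induction u with
  | nil => intro v _; simp [dot]
  | cons a u ih =>
    intro v h
    cases v with
    | nil => simp [dot]
    | cons x v =>
      simp only [List.mem_cons, forall_eq_or_imp] at h
      simp [dot, h.1, ih v h.2]

theorem enc_zero_of_all : ∀ (v : List ℕ), (∀ x ∈ v, x = 0) → enc v = 0 := by
  intro v
  induction v with
  | nil => intro _; rfl
  | cons x v ih =>
    intro h
    simp only [List.mem_cons, forall_eq_or_imp] at h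
    simp [enc, h.1, ih h.2]

/-- the dual weights bound the number of bins -/
theorem dual_bound (hv : c.Valid pt) : ∀ (j : ℕ) (v : List ℕ), LeL v (bT c.T) →
    PackV (sT c.T) c.L j v → dot (uT c.T) v ≤ j * c.D := by
  intro j
  induction j with
  | zero =>
    intro v _ h
    have : dot (uT c.T) v = 0 := dot_zero_of_all _ _ h
    simp [this]
  | succ j ih =>
    intro v hb h
    obtain ⟨p, hp, hr⟩ := h
    have hl : (uT c.T).length = v.length := by
      rw [length_uT, hb.length_eq, length_bT]
    have h1 := dot_add_tsub (uT c.T) v (pmin v p) (leL_pmin v p) hl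
    rw [tsub_pmin] at h1
    have hq := leL_pmin v p
    have h2 : dot (uT c.T) (tsub v p) ≤ j * c.D := by
      apply ih _ _ hr
      rw [← tsub_pmin]
      exact LeL.trans (leL_tsub v _ hq) hb
    have h3 : dot (uT c.T) (pmin v p) ≤ c.D := by
      by_cases hz : ∀ x ∈ pmin v p, x = 0
      · rw [dot_zero_of_all _ _ hz]
        exact Nat.zero_le _
      · exact (leaf_of_valid hv _ (LeL.trans hq hb)
          (le_trans (dot_pmin_le _ _ _) hp) hz).1
    rw [h1, Nat.succ_mul]
    omega

/-- soundness of a table: the states whose keys lie in it cannot be packed -/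
def TS (c : DualCfg) (j : ℕ) (t : KeyTree) : Prop :=
  ∀ v, LeL v (bT c.T) → t.mem (fk (uT c.T) (sT c.T) c.M c.M2 v) = true →
    ¬ PackV (sT c.T) c.L j v

theorem TS_leaf (c : DualCfg) (j : ℕ) : TS c j KeyTree.leaf := by
  intro v _ h
  simp [KeyTree.mem_leaf] at h

theorem fk_div (M M2 a d e : ℕ) (ha : a < M) (hd : d < M2) :
    (a + M * (d + M2 * e)) / M % M2 = d ∧ (a + M * (d + M2 * e)) / (M * M2) = e := by
  have hM : 0 < M := by omega
  have hM2 : 0 < M2 := by omega
  have h1 : (a + M * (d + M2 * e)) / M = d + M2 * e := by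
    rw [Nat.add_mul_div_left _ _ hM, Nat.div_eq_of_lt ha, Nat.zero_add]
  refine ⟨?_, ?_⟩
  · rw [h1, Nat.add_mul_mod_self_left, Nat.mod_eq_of_lt hd]
  · rw [← Nat.div_div_eq_div_mul, h1, Nat.add_mul_div_left _ _ hM2, Nat.div_eq_of_lt hd,
      Nat.zero_add]

/-- one step of the table chain -/
theorem checkK_sound (hv : c.Valid pt) {j Lj : ℕ} {t : KeyTree} (hLj : Lj = j * c.L)
    (ht : TS c j t) (v : List ℕ) (hb : LeL v (bT c.T))
    (h : checkK c pt j Lj t (fk (uT c.T) (sT c.T) c.M c.M2 v) = true) :
    ¬ PackV (sT c.T) c.L (j + 1) v := by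
  intro hpack
  set K := fk (uT c.T) (sT c.T) c.M c.M2 v with hK
  unfold checkK checkN at h
  rw [Bool.and_eq_true, Bool.and_eq_true] at h
  obtain ⟨h0, h1, h2⟩ := h
  have hlenv : v.length = c.T.length := by rw [hb.length_eq, length_bT]
  have hdig : ∀ x ∈ v, x < 128 := mem_lt_of_leL hb hv.hb
  have hdig' : ∀ x ∈ v, x < 256 := fun x hx => by have := hdig x hx; omega
  have hMv : c.M = 256 ^ v.length := by rw [hlenv, hv.hM]
  have hUl : (uT c.T).length = v.length := by rw [length_uT, hlenv]
  have hsl : (sT c.T).length = v.length := by rw [length_sT, hlenv]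
  -- the state is not zero
  have hnz : ¬ ∀ x ∈ v, x = 0 := by
    intro hz
    have : K = 0 := by
      rw [hK]
      unfold fk
      rw [enc_zero_of_all v hz, dot_zero_of_all _ _ hz, dot_zero_of_all _ _ hz]
      simp
    rw [this] at h0
    simp [Nat.blt_eq] at h0
  obtain ⟨p, hp1, hcf, hr⟩ := exists_first (sT c.T) c.L j v hnz hpack
  set q := pmin v p with hq
  have hqv : LeL q v := leL_pmin v p
  have hqb : LeL q (bT c.T) := LeL.trans hqv hb
  have hqs : dot (sT c.T) q ≤ c.L := le_trans (dot_pmin_le _ _ _) hp1
  have hqc : CoversFirst v q := coversFirst_pmin v p hcf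
  have hqr : PackV (sT c.T) c.L j (tsub v q) := by rw [hq, tsub_pmin]; exact hr
  have hcb : LeL (tsub v q) (bT c.T) := LeL.trans (leL_tsub v q hqv) hb
  have hqz : ¬ ∀ x ∈ q, x = 0 := by
    intro hz
    have hf := firstT_eq v q [KeyTree.node KeyTree.leaf 0 0 KeyTree.leaf] hqv hqc
    have hqz' : ∀ (v q : List ℕ), CoversFirst v q → (∀ x ∈ q, x = 0) → LeL q v → False := by
      intro v
      induction v with
      | nil => intro q hc; cases q <;> simp [CoversFirst] at hc
      | cons x v ih =>
        intro q hc hz hl
        cases q with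
        | nil => simp [CoversFirst] at hc
        | cons y q =>
          simp only [List.mem_cons, forall_eq_or_imp] at hz
          simp only [CoversFirst] at hc
          by_cases hx : x = 0
          · rw [if_pos hx] at hc
            exact ih q hc hz.2 hl.2
          · rw [if_neg hx] at hc
            omega
    exact hqz' v q hqc hz hqv
  -- the leaf condition for the pattern
  obtain ⟨hqD, hqm⟩ := leaf_of_valid hv q hqb hqs hqz
  have hqdot : dot (uT c.T) v = dot (uT c.T) q + dot (uT c.T) (tsub v q) := dot_add_tsub (uT c.T) v q hqv hUl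
  have hsdot : dot (sT c.T) v = dot (sT c.T) q + dot (sT c.T) (tsub v q) := dot_add_tsub (sT c.T) v q hqv hsl
  have hcd : dot (uT c.T) (tsub v q) ≤ j * c.D := dual_bound hv j _ hcb hqr
  have hcv : dot (sT c.T) (tsub v q) ≤ j * c.L := volume_bound (sT c.T) c.L j _ hqr
  -- fields of the key
  have henc : enc v < c.M := by rw [hMv]; exact enc_lt v hdig'
  have hdv : dot (uT c.T) v < c.M2 := lt_of_le_of_lt (dot_le_of_leL (uT c.T) v _ hb) hv.hU
  have hf := fk_div c.M c.M2 (enc v) (dot (uT c.T) v) (dot (sT c.T) v) henc hdv
  have hdvK : K / c.M % c.M2 = dot (uT c.T) v := hf.1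
  have hbud : budOf ((j + 1) * c.D) c.M c.M2 K = (j + 1) * c.D - dot (uT c.T) v := by
    show (j + 1) * c.D - K / c.M % c.M2 = _
    rw [hdvK]
  rw [hbud] at h1 h2
  have hbudle : (j + 1) * c.D - dot (uT c.T) v ≤ c.Bm := Nat.le_of_ble_eq_true h1
  have hsl0 : c.D - dot (uT c.T) q ≤ (j + 1) * c.D - dot (uT c.T) v := by
    rw [Nat.succ_mul]
    omega
  have hmem : (firstT q pt).mem ((c.D - dot (uT c.T) q) * c.BIG + fk (uT c.T) (sT c.T) c.M c.M2 q) = true := by
    rcases hqm with hlt | hm
    · omega
    · exact hm
  -- the tree of the state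
  have htree : firstK pt K = firstT q pt := by
    rw [← firstT_eq v q pt hqv hqc, hK]
    unfold fk
    rw [hMv]
    exact firstK_eq v pt _ (by rw [hv.hpt, hlenv]) hdig' hnz
  rw [htree] at h2
  -- the key of the pattern is below the threshold
  have hdigq : ∀ x ∈ q, x < 256 := by
    intro x hx
    have := mem_lt_of_leL hqb hv.hb x hx
    omega
  have hlenq : q.length = c.T.length := by rw [hqb.length_eq, length_bT]
  have hMq : c.M = 256 ^ q.length := by rw [hlenq, hv.hM]
  have hencq : enc q < c.M := by rw [hMq]; exact enc_lt q hdigq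
  have hfkq : fk (uT c.T) (sT c.T) c.M c.M2 q < c.BIG := by
    refine lt_of_lt_of_le ?_ hv.hBIG
    unfold fk
    have h3 : c.M * (dot (uT c.T) q + c.M2 * dot (sT c.T) q) ≤ c.M * (c.D + c.M2 * c.L) := by
      apply Nat.mul_le_mul_left
      have := Nat.mul_le_mul_left c.M2 hqs
      omega
    have h4 : c.M * (1 + c.D + c.M2 * c.L) = c.M + c.M * (c.D + c.M2 * c.L) := by ring
    omega
  have hthr : (c.D - dot (uT c.T) q) * c.BIG + fk (uT c.T) (sT c.T) c.M c.M2 q ≤
      Nat.sub (Nat.mul (Nat.succ ((j + 1) * c.D - dot (uT c.T) v)) c.BIG) 1 := by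
    show _ ≤ (((j + 1) * c.D - dot (uT c.T) v) + 1) * c.BIG - 1
    have h5 : (c.D - dot (uT c.T) q + 1) * c.BIG ≤ (((j + 1) * c.D - dot (uT c.T) v) + 1) * c.BIG :=
      Nat.mul_le_mul_right _ (by omega)
    have h6 : (c.D - dot (uT c.T) q + 1) * c.BIG = (c.D - dot (uT c.T) q) * c.BIG + c.BIG := by ring
    omega
  have htest := KeyTree.allLE_of_mem _ _ _ _ hmem hthr h2
  unfold patTest at htest
  have hmod : Nat.mod ((c.D - dot (uT c.T) q) * c.BIG + fk (uT c.T) (sT c.T) c.M c.M2 q) c.BIG =
      fk (uT c.T) (sT c.T) c.M c.M2 q := by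
    show ((c.D - dot (uT c.T) q) * c.BIG + fk (uT c.T) (sT c.T) c.M c.M2 q) % c.BIG = _
    rw [Nat.add_comm, Nat.add_mul_mod_self_right, Nat.mod_eq_of_lt hfkq]
  rw [hmod] at htest
  -- arithmetic of the keys
  have hadd : K = fk (uT c.T) (sT c.T) c.M c.M2 q + fk (uT c.T) (sT c.T) c.M c.M2 (tsub v q) :=
    fk_add_tsub hqv hUl hsl
  have hsubK : Nat.sub K (fk (uT c.T) (sT c.T) c.M c.M2 q) = fk (uT c.T) (sT c.T) c.M c.M2 (tsub v q) := by
    show K - _ = _
    omega
  -- the digit test succeeds
  have hlandeq : Nat.land (Nat.sub (Nat.add K c.G) (fk (uT c.T) (sT c.T) c.M c.M2 q)) c.G = c.G := by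
    have hG : c.G = guard v.length := by rw [hlenv, hv.hG]
    have hz := enc_zd v q hqv
    have hval : Nat.sub (Nat.add K c.G) (fk (uT c.T) (sT c.T) c.M c.M2 q) =
        enc (zd v q) + 256 ^ v.length * (dot (uT c.T) (tsub v q) + c.M2 * dot (sT c.T) (tsub v q)) := by
      show K + c.G - _ = _
      rw [hadd, hG]
      unfold fk
      rw [← hMv]
      have hsplit : enc (tsub v q) + enc q = enc v := by
        rw [enc_add_tsub v q hqv]; ring
      omega
    rw [hval]
    show (enc (zd v q) + 256 ^ v.length * _) &&& c.G = c.G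
    rw [hG]
    exact land_guard v q hqv hdig _
  rw [hlandeq] at htest
  have hbeq : Nat.beq c.G c.G = true := by simp
  rw [hbeq] at htest
  simp only [cond_true, Bool.or_eq_true] at htest
  rw [hsubK] at htest
  rcases htest with hvol | hm
  · -- the residual has too much volume
    have h7 : Lj < fk (uT c.T) (sT c.T) c.M c.M2 (tsub v q) / c.M3 := by
      have h70 : Nat.blt Lj (Nat.div (fk (uT c.T) (sT c.T) c.M c.M2 (tsub v q)) c.M3) = true := hvol
      have h71 : Lj < Nat.div (fk (uT c.T) (sT c.T) c.M c.M2 (tsub v q)) c.M3 := by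
        simpa [Nat.blt_eq] using h70
      exact h71
    have hchild : ∀ x ∈ tsub v q, x < 256 := by
      intro x hx
      have := mem_lt_of_leL hcb hv.hb x hx
      omega
    have hlenc : (tsub v q).length = c.T.length := by rw [hcb.length_eq, length_bT]
    have hMc : c.M = 256 ^ (tsub v q).length := by rw [hlenc, hv.hM]
    have hencc : enc (tsub v q) < c.M := by rw [hMc]; exact enc_lt _ hchild
    have hdc : dot (uT c.T) (tsub v q) < c.M2 := lt_of_le_of_lt (dot_le_of_leL (uT c.T) _ _ hcb) hv.hU
    have hfc := fk_div c.M c.M2 _ _ (dot (sT c.T) (tsub v q)) hencc hdc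
    have h8 : fk (uT c.T) (sT c.T) c.M c.M2 (tsub v q) / c.M3 = dot (sT c.T) (tsub v q) := by
      rw [hv.hM3]
      exact hfc.2
    rw [h8, hLj] at h7
    omega
  · exact ht _ hcb hm hqr

theorem TS_step (hv : c.Valid pt) {j Lj : ℕ} {t t' : KeyTree} (hLj : Lj = j * c.L)
    (ht : TS c j t) (hall : t'.all (checkK c pt j Lj t) = true) : TS c (j + 1) t' := by
  intro v hb hm
  exact checkK_sound hv hLj ht v hb (KeyTree.all_of_mem t' _ _ hm hall)

theorem all_node_true {l r : KeyTree} {k g : ℕ} {P : ℕ → Bool}
    (h0 : P (Nat.add k (Nat.sub g g)) = true) (h1 : l.all P = true) (h2 : r.all P = true) :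
    (KeyTree.node l k g r).all P = true := by
  rw [KeyTree.all_node, h0, h1, h2]
  rfl

/-- the conclusion of a certificate: no packing of `b` in `j + 1` bins -/
theorem not_packV_of_TS (hv : c.Valid pt) {j Lj : ℕ} {t : KeyTree} (hLj : Lj = j * c.L)
    (ht : TS c j t) (h : checkK c pt j Lj t (fk (uT c.T) (sT c.T) c.M c.M2 (bT c.T)) = true) :
    ¬ PackV (sT c.T) c.L (j + 1) (bT c.T) :=
  checkK_sound hv hLj ht _ (LeL.refl _) h

end

/-- Main reduction: a fractional solution and the impossibility of a covering by `K` patterns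
bound the gap from below. -/
theorem gap_bound_packV (w s : List ℕ) (sol : List (List ℕ × ℕ)) (L K Z : ℕ) (hL : 0 < L) (hZ : 0 < Z)
    (hs : s.Nodup) (hpos : ∀ a ∈ s, 0 < a) (hw : ∀ a ∈ w, a ∈ s) (hle : ∀ a ∈ w, a ≤ L)
    (hn : ¬ PackV s L K (s.map w.count))
    (hpat : ∀ x ∈ sol, x.1.sum ≤ L ∧ ∀ a ∈ x.1, a ∈ w)
    (hcov : ∀ a ∈ w, w.count a * Z ≤ (sol.map fun x => x.1.count a * x.2).sum) :
    (∀ a ∈ scale L w, 0 < a ∧ a ≤ 1) ∧
      ((K : ℝ) + 1) - ((sol.map fun x => x.2).sum : ℕ) / (Z : ℝ) ≤
        (OPT (scale L w) : ℝ) - LP (scale L w) := by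
  have hL' : (0 : ℚ) < L := by exact_mod_cast hL
  have hI : ∀ a ∈ scale L w, 0 < a ∧ a ≤ 1 := by
    intro q hq
    simp only [scale, List.mem_map] at hq
    obtain ⟨a, ha, rfl⟩ := hq
    have h0 : (0 : ℚ) < a := by exact_mod_cast hpos a (hw a ha)
    refine ⟨by positivity, ?_⟩
    rw [div_le_one hL']
    exact_mod_cast hle a ha
  refine ⟨hI, ?_⟩
  have hnot : ¬ PacksInto (scale L w) K := by
    rintro ⟨f, hf⟩
    have hlen : (scale L w).length = w.length := by simp [scale]
    apply hn
    apply packV_of_assign w s L _ hs hw (fun i => f (Fin.cast hlen.symm i))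
    intro j
    have h1 := hf j
    have h2 : ∑ i ∈ Finset.univ.filter (fun i => f i = j), (scale L w).get i =
        ∑ i ∈ Finset.univ.filter (fun i => f (Fin.cast hlen.symm i) = j),
          ((w.get i : ℕ) : ℚ) / L := by
      apply Finset.sum_bij (fun i _ => Fin.cast hlen i)
      · intro i hi
        simpa using hi
      · intro i _ i' _ h
        exact Fin.cast_injective hlen h
      · intro i hi
        refine ⟨Fin.cast hlen.symm i, ?_, by simp⟩
        simpa using hi
      · intro i _
        change (List.map (fun a : ℕ => (a : ℚ) / (L : ℚ)) w)[i.val]'(by simpa [scale] using i.isLt) = _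
        simp
    rw [h2, ← Finset.sum_div, div_le_one hL'] at h1
    exact_mod_cast h1
  have h1 := le_OPT (fun a ha => (hI a ha).2) hnot
  have h2 := LP_le_of_isLPValue (isLPValue_of_sol L hL w sol Z hZ hpat hcov)
  have h3 : ((K : ℝ) + 1) ≤ (OPT (scale L w) : ℝ) := by exact_mod_cast h1
  linarith

end Vale.Agent.Lib.P302
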