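import Vale.Agent.Lib.P302.Bridge

namespace Vale.Agent.Lib.P302

/-! Fast certificate checking with tables of infeasible states, written with raw recursors and
raw natural number operations so that the kernel evaluates it quickly. -/

/-- binary search tree of natural number keys; the second number of a node is a small tag
that only serves to make the terms the kernel meets for different keys differ early -/
inductive KeyTree : Type
  | leaf : KeyTree
  | node : KeyTree → ℕ → ℕ → KeyTree → KeyTree

/-- membership test following the search path -/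
noncomputable def KeyTree.mem (t : KeyTree) (x : ℕ) : Bool :=
  KeyTree.rec (motive := fun _ => Bool) false
    (fun _ k _ _ il ir => cond (Nat.ble x k) (cond (Nat.ble k x) true il) ir) t

/-- all keys satisfy a predicate -/
noncomputable def KeyTree.all (t : KeyTree) (p : ℕ → Bool) : Bool :=
  KeyTree.rec (motive := fun _ => Bool) true
    (fun _ k g _ il ir => and (p (Nat.add k (Nat.sub g g))) (and il ir)) t

theorem KeyTree.mem_leaf (x : ℕ) : KeyTree.leaf.mem x = false := rfl

theorem KeyTree.mem_node (l r : KeyTree) (k g x : ℕ) : (KeyTree.node l k g r).mem x =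
    cond (Nat.ble x k) (cond (Nat.ble k x) true (l.mem x)) (r.mem x) := rfl

theorem KeyTree.all_leaf (p : ℕ → Bool) : KeyTree.leaf.all p = true := rfl

theorem KeyTree.all_node (l r : KeyTree) (k g : ℕ) (p : ℕ → Bool) : (KeyTree.node l k g r).all p =
    and (p (Nat.add k (Nat.sub g g))) (and (l.all p) (r.all p)) := rfl

theorem KeyTree.all_of_mem : ∀ (t : KeyTree) (p : ℕ → Bool) (x : ℕ), t.mem x = true →
    t.all p = true → p x = true := by
  intro t p x
  induction t with
  | leaf => intro h; simp [KeyTree.mem_leaf] at h
  | node l k g r ihl ihr =>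
    intro hm ha
    rw [KeyTree.all_node, Bool.and_eq_true, Bool.and_eq_true] at ha
    rw [KeyTree.mem_node] at hm
    have hk : Nat.add k (Nat.sub g g) = k := by
      show k + (g - g) = k
      simp
    cases h1 : Nat.ble x k with
    | false =>
      rw [h1] at hm
      exact ihr hm ha.2.2
    | true =>
      rw [h1] at hm
      cases h2 : Nat.ble k x with
      | true =>
        have h3 : x = k := le_antisymm (Nat.le_of_ble_eq_true h1) (Nat.le_of_ble_eq_true h2)
        rw [h3]
        have := ha.1
        rwa [hk] at this
      | false =>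
        rw [h2] at hm
        exact ihl hm ha.2.1

/-- encode a vector in base 256 -/
def enc : List ℕ → ℕ
  | [] => 0
  | x :: v => x + 256 * enc v

/-- decode `m` digits in base 256 -/
def dec : ℕ → ℕ → List ℕ
  | 0, _ => []
  | m + 1, k => (k % 256) :: dec m (k / 256)

theorem length_dec : ∀ (m k : ℕ), (dec m k).length = m := by
  intro m
  induction m with
  | zero => intro k; rfl
  | succ m ih => intro k; simp [dec, ih]

theorem dec_lt : ∀ (m k x : ℕ), x ∈ dec m k → x < 256 := by
  intro m
  induction m with
  | zero => intro k x h; simp [dec] at h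
  | succ m ih =>
    intro k x h
    simp only [dec, List.mem_cons] at h
    rcases h with rfl | h
    · exact Nat.mod_lt _ (by norm_num)
    · exact ih _ _ h

theorem dec_enc : ∀ (r : List ℕ), (∀ x ∈ r, x < 256) → dec r.length (enc r) = r := by
  intro r
  induction r with
  | nil => intro _; rfl
  | cons x r ih =>
    intro h
    have hx : x < 256 := h x (by simp)
    have hr : ∀ y ∈ r, y < 256 := fun y hy => h y (by simp [hy])
    simp only [List.length_cons, dec, enc]
    have h1 : (x + 256 * enc r) % 256 = x := by omega
    have h2 : (x + 256 * enc r) / 256 = enc r := by omega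
    rw [h1, h2, ih hr]

theorem tsub_lt : ∀ (v p : List ℕ), (∀ x ∈ v, x < 256) → ∀ x ∈ tsub v p, x < 256 := by
  intro v
  induction v with
  | nil => intro p _ x hx; cases p <;> simp [tsub] at hx
  | cons y v ih =>
    intro p h x hx
    have hy : y < 256 := h y (by simp)
    have hv : ∀ z ∈ v, z < 256 := fun z hz => h z (by simp [hz])
    cases p with
    | nil => rw [tsub_nil] at hx; exact h x hx
    | cons z p =>
      simp only [tsub, List.mem_cons] at hx
      rcases hx with rfl | hx
      · omega
      · exact ih p hv x hx

/-- `f 1 && ... && f n` -/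
noncomputable def allQ (f : ℕ → Bool) (n : ℕ) : Bool :=
  Nat.rec (motive := fun _ => Bool) true (fun m ih => and (f (Nat.succ m)) ih) n

theorem allQ_of_le (f : ℕ → Bool) : ∀ (n : ℕ), allQ f n = true → ∀ q, 1 ≤ q → q ≤ n → f q = true := by
  intro n
  induction n with
  | zero => intro _ q h1 h2; omega
  | succ n ih =>
    intro h q h1 h2
    have h' : and (f (Nat.succ n)) (allQ f n) = true := h
    rw [Bool.and_eq_true] at h'
    by_cases hq : q = n + 1
    · rw [hq]; exact h'.1
    · exact ih h'.2 q h1 (by omega)

/-- minimum with raw operations -/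
def nmin (x y : ℕ) : ℕ := cond (Nat.ble x y) x y

theorem le_nmin {q x y : ℕ} (h1 : q ≤ x) (h2 : q ≤ y) : q ≤ nmin x y := by
  unfold nmin
  cases h : Nat.ble x y <;> simpa

/-- The enumeration of all residual vectors of `dec s.length rk`, with accumulated key `acc`, digit
weight `w` and accumulated residual volume `vol`. A residual is settled if its volume exceeds
`bound` or its key is in the table `t`. -/
noncomputable def goTail (bound : ℕ) (t : KeyTree) (s : List ℕ) :
    ℕ → ℕ → ℕ → ℕ → ℕ → Bool :=
  List.rec (motive := fun _ => ℕ → ℕ → ℕ → ℕ → ℕ → Bool)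
    (fun _ _ acc _ vol => or (Nat.blt bound vol) (t.mem acc))
    (fun a _ ih rk cap acc w vol =>
      or (Nat.blt bound vol)
        (and (ih (Nat.div rk 256) cap (Nat.add acc (Nat.mul w (Nat.mod rk 256))) (Nat.mul 256 w)
              (Nat.add vol (Nat.mul a (Nat.mod rk 256))))
          (allQ (fun q => ih (Nat.div rk 256) (Nat.sub cap (Nat.mul a q))
              (Nat.add acc (Nat.mul w (Nat.sub (Nat.mod rk 256) q))) (Nat.mul 256 w)
              (Nat.add vol (Nat.mul a (Nat.sub (Nat.mod rk 256) q))))
            (nmin (Nat.mod rk 256) (Nat.div cap a))))) s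

theorem goTail_nil (bound : ℕ) (t : KeyTree) (rk cap acc w vol : ℕ) :
    goTail bound t [] rk cap acc w vol = or (Nat.blt bound vol) (t.mem acc) := rfl

theorem goTail_cons (bound : ℕ) (t : KeyTree) (a : ℕ) (s : List ℕ) (rk cap acc w vol : ℕ) :
    goTail bound t (a :: s) rk cap acc w vol =
      or (Nat.blt bound vol)
        (and (goTail bound t s (rk / 256) cap (acc + w * (rk % 256)) (256 * w)
              (vol + a * (rk % 256)))
          (allQ (fun q => goTail bound t s (rk / 256) (cap - a * q)
              (acc + w * (rk % 256 - q)) (256 * w)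
              (vol + a * (rk % 256 - q)))
            (nmin (rk % 256) (cap / a)))) := rfl

/-- First level: skip zero digits, then the first nonzero digit must be covered at least once. -/
noncomputable def goFirst (bound : ℕ) (t : KeyTree) (s : List ℕ) :
    ℕ → ℕ → ℕ → ℕ → ℕ → Bool :=
  List.rec (motive := fun _ => ℕ → ℕ → ℕ → ℕ → ℕ → Bool)
    (fun _ _ _ _ _ => false)
    (fun a s' ih rk cap acc w vol =>
      cond (Nat.beq (Nat.mod rk 256) 0)
        (ih (Nat.div rk 256) cap acc (Nat.mul 256 w) vol)
        (allQ (fun q => goTail bound t s' (Nat.div rk 256) (Nat.sub cap (Nat.mul a q))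
            (Nat.add acc (Nat.mul w (Nat.sub (Nat.mod rk 256) q))) (Nat.mul 256 w)
            (Nat.add vol (Nat.mul a (Nat.sub (Nat.mod rk 256) q))))
          (nmin (Nat.mod rk 256) (Nat.div cap a)))) s

theorem goFirst_cons (bound : ℕ) (t : KeyTree) (a : ℕ) (s : List ℕ) (rk cap acc w vol : ℕ) :
    goFirst bound t (a :: s) rk cap acc w vol =
      cond (Nat.beq (rk % 256) 0)
        (goFirst bound t s (rk / 256) cap acc (256 * w) vol)
        (allQ (fun q => goTail bound t s (rk / 256) (cap - a * q)
            (acc + w * (rk % 256 - q)) (256 * w)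
            (vol + a * (rk % 256 - q)))
          (nmin (rk % 256) (cap / a))) := rfl

/-- The property of a settled residual. -/
def Settled (bound : ℕ) (t : KeyTree) (acc vol : ℕ) : Prop :=
  bound < vol ∨ t.mem acc = true

theorem goTail_sound (bound : ℕ) (t : KeyTree) : ∀ (s : List ℕ), (∀ a ∈ s, 0 < a) →
    ∀ (rk cap acc w vol : ℕ) (p : List ℕ), dot s p ≤ cap →
      goTail bound t s rk cap acc w vol = true →
      Settled bound t (acc + w * enc (tsub (dec s.length rk) p))
        (vol + dot s (tsub (dec s.length rk) p)) := by
  intro s
  induction s with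
  | nil =>
    intro _ rk cap acc w vol p _ h
    rw [goTail_nil, Bool.or_eq_true] at h
    have : tsub (dec 0 rk) p = [] := by
      cases p <;> rfl
    simp only [List.length_nil, this, enc, Nat.mul_zero, Nat.add_zero, dot]
    rcases h with h | h
    · left; simpa [Nat.blt_eq] using h
    · right; exact h
  | cons a s ih =>
    intro hpos rk cap acc w vol p hd h
    have ha : 0 < a := hpos a (by simp)
    have hpos' : ∀ b ∈ s, 0 < b := fun b hb => hpos b (by simp [hb])
    rw [goTail_cons, Bool.or_eq_true, Bool.and_eq_true] at h
    simp only [List.length_cons, dec]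
    rcases h with h | ⟨h0, h1⟩
    · left
      have h2 : bound < vol := by simpa [Nat.blt_eq] using h
      omega
    · -- the head of the pattern
      obtain ⟨y, p', hp⟩ : ∃ y p', (p = y :: p' ∨ (p = [] ∧ y = 0 ∧ p' = [])) := by
        cases p with
        | nil => exact ⟨0, [], Or.inr ⟨rfl, rfl, rfl⟩⟩
        | cons y p' => exact ⟨y, p', Or.inl rfl⟩
      have hdy : a * y + dot s p' ≤ cap := by
        rcases hp with rfl | ⟨rfl, rfl, rfl⟩
        · simpa [dot] using hd
        · cases s <;> simp [dot]
      have hts : tsub (rk % 256 :: dec s.length (rk / 256)) p =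
          (rk % 256 - y) :: tsub (dec s.length (rk / 256)) p' := by
        rcases hp with rfl | ⟨rfl, rfl, rfl⟩
        · rfl
        · simp [tsub_nil]
      rw [hts]
      simp only [enc, dot]
      set x := rk % 256 with hx
      set q := min x y with hq
      have hqx : q ≤ x := min_le_left _ _
      have hqy : q ≤ y := min_le_right _ _
      have hsub : x - q = x - y := by omega
      rw [← hsub]
      have key : Settled bound t
          (acc + w * (x - q) + 256 * w * enc (tsub (dec s.length (rk / 256)) p'))
          (vol + a * (x - q) + dot s (tsub (dec s.length (rk / 256)) p')) := by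
        by_cases hq0 : q = 0
        · have := ih hpos' (rk / 256) cap (acc + w * x) (256 * w) (vol + a * x) p' (by omega) h0
          rw [hq0, Nat.sub_zero]
          exact this
        · have hq1 : 1 ≤ q := by omega
          have hqn : q ≤ nmin x (cap / a) := by
            apply le_nmin hqx
            rw [Nat.le_div_iff_mul_le ha, Nat.mul_comm]
            have : a * q ≤ a * y := Nat.mul_le_mul_left _ hqy
            omega
          have h2 := allQ_of_le _ _ h1 q hq1 hqn
          have hcap : dot s p' ≤ cap - a * q := by
            have : a * q ≤ a * y := Nat.mul_le_mul_left _ hqy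
            omega
          exact ih hpos' (rk / 256) (cap - a * q) _ (256 * w) _ p' hcap h2
      have e1 : acc + w * (x - q + 256 * enc (tsub (dec s.length (rk / 256)) p')) =
          acc + w * (x - q) + 256 * w * enc (tsub (dec s.length (rk / 256)) p') := by ring
      have e2 : vol + (a * (x - q) + dot s (tsub (dec s.length (rk / 256)) p')) =
          vol + a * (x - q) + dot s (tsub (dec s.length (rk / 256)) p') := by ring
      rw [e1, e2]
      exact key

theorem goFirst_sound (bound : ℕ) (t : KeyTree) : ∀ (s : List ℕ), (∀ a ∈ s, 0 < a) →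
    ∀ (rk cap acc w vol : ℕ) (p : List ℕ), dot s p ≤ cap →
      CoversFirst (dec s.length rk) p →
      goFirst bound t s rk cap acc w vol = true →
      Settled bound t (acc + w * enc (tsub (dec s.length rk) p))
        (vol + dot s (tsub (dec s.length rk) p)) := by
  intro s
  induction s with
  | nil =>
    intro _ rk cap acc w vol p _ hc _
    simp [dec, CoversFirst] at hc
  | cons a s ih =>
    intro hpos rk cap acc w vol p hd hc h
    have ha : 0 < a := hpos a (by simp)
    have hpos' : ∀ b ∈ s, 0 < b := fun b hb => hpos b (by simp [hb])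
    rw [goFirst_cons] at h
    simp only [List.length_cons, dec] at hc ⊢
    cases p with
    | nil => simp [CoversFirst] at hc
    | cons y p' =>
      simp only [CoversFirst] at hc
      simp only [dot] at hd
      simp only [tsub, enc, dot]
      set x := rk % 256 with hx
      by_cases hx0 : x = 0
      · rw [if_pos hx0] at hc
        have hb : Nat.beq x 0 = true := by simp [hx0]
        rw [hb] at h
        have := ih hpos' (rk / 256) cap acc (256 * w) vol p' (by omega) hc h
        rw [hx0, Nat.zero_sub]
        have e1 : acc + w * (0 + 256 * enc (tsub (dec s.length (rk / 256)) p')) =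
            acc + 256 * w * enc (tsub (dec s.length (rk / 256)) p') := by ring
        have e2 : vol + (a * 0 + dot s (tsub (dec s.length (rk / 256)) p')) =
            vol + dot s (tsub (dec s.length (rk / 256)) p') := by ring
        rw [e1, e2]
        exact this
      · rw [if_neg hx0] at hc
        have hb : Nat.beq x 0 = false := by
          cases h' : Nat.beq x 0 with
          | false => rfl
          | true => exact absurd (Nat.eq_of_beq_eq_true h') hx0
        rw [hb] at h
        simp only [cond_false] at h
        set q := min x y with hq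
        have hqx : q ≤ x := min_le_left _ _
        have hqy : q ≤ y := min_le_right _ _
        have hq1 : 1 ≤ q := by
          apply le_min <;> omega
        have hsub : x - q = x - y := by omega
        rw [← hsub]
        have hqn : q ≤ nmin x (cap / a) := by
          apply le_nmin hqx
          rw [Nat.le_div_iff_mul_le ha, Nat.mul_comm]
          have : a * q ≤ a * y := Nat.mul_le_mul_left _ hqy
          omega
        have h2 := allQ_of_le _ _ h q hq1 hqn
        have hcap : dot s p' ≤ cap - a * q := by
          have : a * q ≤ a * y := Nat.mul_le_mul_left _ hqy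
          omega
        have := goTail_sound bound t s hpos' (rk / 256) (cap - a * q) _ (256 * w) _ p' hcap h2
        have e1 : acc + w * (x - q + 256 * enc (tsub (dec s.length (rk / 256)) p')) =
            acc + w * (x - q) + 256 * w * enc (tsub (dec s.length (rk / 256)) p') := by ring
        have e2 : vol + (a * (x - q) + dot s (tsub (dec s.length (rk / 256)) p')) =
            vol + a * (x - q) + dot s (tsub (dec s.length (rk / 256)) p') := by ring
        rw [e1, e2]
        exact this

theorem goFirst_not_zero (bound : ℕ) (t : KeyTree) : ∀ (s : List ℕ) (rk cap acc w vol : ℕ),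
    goFirst bound t s rk cap acc w vol = true → ¬ ∀ x ∈ dec s.length rk, x = 0 := by
  intro s
  induction s with
  | nil =>
    intro rk cap acc w vol h
    exact absurd h (by simp [goFirst])
  | cons a s ih =>
    intro rk cap acc w vol h hz
    rw [goFirst_cons] at h
    simp only [List.length_cons, dec, List.mem_cons, forall_eq_or_imp] at hz
    have hb : Nat.beq (rk % 256) 0 = true := by simp [hz.1]
    rw [hb] at h
    exact ih _ _ _ _ _ h hz.2

/-- The state with key `k` is settled for `j + 1` bins, given the table `t` for `j` bins. -/
noncomputable def checkKey (s : List ℕ) (L j : ℕ) (t : KeyTree) (k : ℕ) : Bool :=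
  goFirst (Nat.mul j L) t s k L 0 1 0

/-- All keys of the table `t` are infeasible states for `j` bins. -/
def TableSound (s : List ℕ) (L j : ℕ) (t : KeyTree) : Prop :=
  ∀ k, t.mem k = true → ¬ PackV s L j (dec s.length k)

theorem checkKey_sound {s : List ℕ} {L j : ℕ} {t : KeyTree} {k : ℕ}
    (hpos : ∀ a ∈ s, 0 < a) (ht : TableSound s L j t) (h : checkKey s L j t k = true) :
    ¬ PackV s L (j + 1) (dec s.length k) := by
  unfold checkKey at h
  have h1 := h
  intro hp
  have hnz : ¬ ∀ x ∈ dec s.length k, x = 0 := goFirst_not_zero _ t s k L 0 1 0 h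
  obtain ⟨p, hp1, hc, hr⟩ := exists_first s L j _ hnz hp
  have h2 := goFirst_sound _ t s hpos k L 0 1 0 p hp1 hc h1
  simp only [Nat.zero_add, Nat.one_mul] at h2
  rcases h2 with h2 | h2
  · have h3 := volume_bound s L j _ hr
    have h4 : j * L < dot s (tsub (dec s.length k) p) := h2
    omega
  · have h3 := ht _ h2
    have hlt := tsub_lt _ p (dec_lt s.length k)
    have hlen : (tsub (dec s.length k) p).length = s.length := by
      rw [length_tsub, length_dec]
    have h4 := dec_enc _ hlt
    rw [hlen] at h4
    rw [h4] at h3
    exact h3 hr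

/-- Every key of each table is settled using the previous table. -/
noncomputable def verifyLayers (s : List ℕ) (L : ℕ) : ℕ → KeyTree → List KeyTree → Bool
  | _, _, [] => true
  | j, prev, t :: ts =>
      and (t.all (checkKey s L j prev)) (verifyLayers s L (j + 1) t ts)

/-- The last table of the list -/
def lastTable : KeyTree → List KeyTree → KeyTree
  | prev, [] => prev
  | _, t :: ts => lastTable t ts

theorem tableSound_leaf (s : List ℕ) (L j : ℕ) : TableSound s L j KeyTree.leaf := by
  intro k hk
  simp [KeyTree.mem_leaf] at hk

theorem tableSound_of_all {s : List ℕ} {L j : ℕ} {prev t : KeyTree} (hpos : ∀ a ∈ s, 0 < a)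
    (hprev : TableSound s L j prev) (hall : t.all (checkKey s L j prev) = true) :
    TableSound s L (j + 1) t := by
  intro k hk
  exact checkKey_sound hpos hprev (KeyTree.all_of_mem t _ k hk hall)

theorem tableSound_last {s : List ℕ} {L : ℕ} (hpos : ∀ a ∈ s, 0 < a) :
    ∀ (ts : List KeyTree) (j : ℕ) (prev : KeyTree), TableSound s L j prev →
      verifyLayers s L j prev ts = true →
      TableSound s L (j + ts.length) (lastTable prev ts) := by
  intro ts
  induction ts with
  | nil => intro j prev h _; simpa [lastTable] using h
  | cons t ts ih =>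
    intro j prev h hv
    simp only [verifyLayers, Bool.and_eq_true] at hv
    have h1 := tableSound_of_all hpos h hv.1
    have h2 := ih (j + 1) t h1 hv.2
    have h3 : j + (t :: ts).length = j + 1 + ts.length := by
      simp only [List.length_cons]
      omega
    rw [h3]
    exact h2

/-- Final form: the layered tables certify that the vector with key `k` cannot be covered by
`ts.length + 1` patterns. -/
theorem not_packV_of_tables {s : List ℕ} {L : ℕ} (hpos : ∀ a ∈ s, 0 < a) (ts : List KeyTree)
    (k : ℕ) (hv : verifyLayers s L 0 KeyTree.leaf ts = true)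
    (hc : checkKey s L ts.length (lastTable KeyTree.leaf ts) k = true) :
    ¬ PackV s L (ts.length + 1) (dec s.length k) := by
  have h := tableSound_last hpos ts 0 KeyTree.leaf (tableSound_leaf s L 0) hv
  rw [Nat.zero_add] at h
  exact checkKey_sound hpos h hc

/-- Variant of `not_packsInto` using tables instead of the plain search. -/
theorem not_packsInto_tables (w s : List ℕ) (L : ℕ) (ts : List KeyTree) (k : ℕ) (hL : 0 < L)
    (hs : s.Nodup) (hpos : ∀ a ∈ s, 0 < a) (hw : ∀ a ∈ w, a ∈ s)
    (hk : dec s.length k = s.map w.count)
    (hv : verifyLayers s L 0 KeyTree.leaf ts = true)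
    (hc : checkKey s L ts.length (lastTable KeyTree.leaf ts) k = true) :
    ¬ PacksInto (scale L w) (ts.length + 1) := by
  rintro ⟨f, hf⟩
  have hlen : (scale L w).length = w.length := by simp [scale]
  have hL' : (0 : ℚ) < L := by exact_mod_cast hL
  have key : PackV s L (ts.length + 1) (s.map w.count) := by
    apply packV_of_assign w s L _ hs hw (fun i => f (Fin.cast hlen.symm i))
    intro j
    have h1 := hf j
    have h2 : ∑ i ∈ Finset.univ.filter (fun i => f i = j), (scale L w).get i =
        ∑ i ∈ Finset.univ.filter (fun i => f (Fin.cast hlen.symm i) = j),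
          ((w.get i : ℕ) : ℚ) / L := by
      apply Finset.sum_bij (fun i _ => Fin.cast hlen i)
      · intro i hi
        simpa using hi
      · intro i _ i' _ h
        exact Fin.cast_injective hlen h
      · intro i hi
        refine ⟨Fin.cast hlen.symm i, ?_, by simp⟩
        simpa using hi
      · intro i _
        change (List.map (fun a : ℕ => (a : ℚ) / (L : ℚ)) w)[i.val]'(by simpa [scale] using i.isLt) = _
        simp
    rw [h2, ← Finset.sum_div, div_le_one hL'] at h1
    exact_mod_cast h1
  rw [← hk] at key
  exact not_packV_of_tables hpos ts k hv hc key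

/-- Main reduction with tables: `ts.length + 1` bins are not enough. -/
theorem gap_bound_tables (w s : List ℕ) (sol : List (List ℕ × ℕ)) (L Z : ℕ) (ts : List KeyTree)
    (k : ℕ) (hL : 0 < L) (hZ : 0 < Z)
    (hs : s.Nodup) (hpos : ∀ a ∈ s, 0 < a) (hw : ∀ a ∈ w, a ∈ s) (hle : ∀ a ∈ w, a ≤ L)
    (hk : dec s.length k = s.map w.count)
    (hv : verifyLayers s L 0 KeyTree.leaf ts = true)
    (hc : checkKey s L ts.length (lastTable KeyTree.leaf ts) k = true)
    (hpat : ∀ x ∈ sol, x.1.sum ≤ L ∧ ∀ a ∈ x.1, a ∈ w)
    (hcov : ∀ a ∈ w, w.count a * Z ≤ (sol.map fun x => x.1.count a * x.2).sum) :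
    (∀ a ∈ scale L w, 0 < a ∧ a ≤ 1) ∧
      (((ts.length + 1 : ℕ) : ℝ) + 1) - ((sol.map fun x => x.2).sum : ℕ) / (Z : ℝ) ≤
        (OPT (scale L w) : ℝ) - LP (scale L w) := by
  have hL' : (0 : ℚ) < L := by exact_mod_cast hL
  have hI : ∀ a ∈ scale L w, 0 < a ∧ a ≤ 1 := by
    intro q hq
    simp only [scale, List.mem_map] at hq
    obtain ⟨a, ha, rfl⟩ := hq
    have h0 : (0 : ℚ) < a := by exact_mod_cast hpos a (hw a ha)
    refine ⟨by positivity, ?_⟩
    rw [div_le_one hL']
    exact_mod_cast hle a ha
  refine ⟨hI, ?_⟩
  have h1 := le_OPT (fun a ha => (hI a ha).2) (not_packsInto_tables w s L ts k hL hs hpos hw hk hv hc)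
  have h2 := LP_le_of_isLPValue (isLPValue_of_sol L hL w sol Z hZ hpat hcov)
  have h3 : (((ts.length + 1 : ℕ) : ℝ) + 1) ≤ (OPT (scale L w) : ℝ) := by exact_mod_cast h1
  linarith

end Vale.Agent.Lib.P302
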